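import Vale.Agent.P227.H880.Defs

/-! # P227: cone-volume measure and `L_p` surface area measure -/

open MeasureTheory
open scoped ENNReal Pointwise

namespace Vale.Agent.P227

/-- The outer unit normal of `K` at the boundary point `x / ‖x‖_K`: the normalized gradient of
the gauge of `K` at `x` (defined for almost every `x`). -/
noncomputable def outerNormal {n : ℕ} (K : Set (EuclideanSpace ℝ (Fin n)))
    (x : EuclideanSpace ℝ (Fin n)) : EuclideanSpace ℝ (Fin n) :=
  ‖gradient (gauge K) x‖⁻¹ • gradient (gauge K) x

/-- The cone-volume measure of `K`: the measure of a Borel set `ω` of directions is the volume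
of the set of the points `x` of `K` for which the outer unit normal at `x / ‖x‖_K` lies in `ω`. -/
noncomputable def coneVol {n : ℕ} (K : Set (EuclideanSpace ℝ (Fin n))) :
    Measure (EuclideanSpace ℝ (Fin n)) :=
  Measure.map (outerNormal K) (volume.restrict K)

/-- The `L_p` surface area measure `S_p(K) = h_K^(1-p) S(K) = n h_K^(-p) V(K)`. -/
noncomputable def lpSurface {n : ℕ} (p : ℝ) (K : Set (EuclideanSpace ℝ (Fin n))) :
    Measure (EuclideanSpace ℝ (Fin n)) :=
  (coneVol K).withDensity (fun u => ENNReal.ofReal (n * supportFn K u ^ (-p)))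

/-- The product of the functions `f_j (e^(a_j) x)`. -/
noncomputable def scaledProd {n J : ℕ} (f : Fin J → EuclideanSpace ℝ (Fin n) → ℝ) (a : Fin J → ℝ)
    (x : EuclideanSpace ℝ (Fin n)) : ℝ≥0∞ :=
  ∏ j, ENNReal.ofReal (f j (Real.exp (a j) • x))

/-- Functional form of the logarithmic Brunn-Minkowski inequality, with all scaling parameters:
over symmetric convex bodies and their logarithmic combination, and over the whole space. -/
def FunctionalForm (n : ℕ) : Prop :=
  ∀ (J : ℕ) (f : Fin J → EuclideanSpace ℝ (Fin n) → ℝ), (∀ j, EvenLogConcave (f j)) →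
    ∀ (a b : Fin J → ℝ) (t : ℝ), 0 ≤ t → t ≤ 1 →
      (∀ K L : Set (EuclideanSpace ℝ (Fin n)), SymConvexBody K → SymConvexBody L →
        (∫⁻ x in K, scaledProd f a x) ^ (1 - t) * (∫⁻ x in L, scaledProd f b x) ^ t ≤
          ∫⁻ x in logComb t K L, scaledProd f (fun j => (1 - t) * a j + t * b j) x) ∧
      (∫⁻ x, scaledProd f a x) ^ (1 - t) * (∫⁻ x, scaledProd f b x) ^ t ≤
        ∫⁻ x, scaledProd f (fun j => (1 - t) * a j + t * b j) x

/-- The logarithmic Minkowski inequality, and the `L_p` Minkowski inequality for every `p > 0`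
with its equality cases. -/
def MinkowskiInequalities (n : ℕ) : Prop :=
  ∀ K L : Set (EuclideanSpace ℝ (Fin n)), SymConvexBody K → SymConvexBody L →
    (volume K).toReal * Real.log ((volume L).toReal / (volume K).toReal) ≤
        n * ∫ u, Real.log (supportFn L u / supportFn K u) ∂(coneVol K) ∧
    ∀ p : ℝ, 0 < p →
      (volume K).toReal * ((volume L).toReal / (volume K).toReal) ^ (p / n) ≤
          ∫ u, (supportFn L u / supportFn K u) ^ p ∂(coneVol K) ∧
      ((volume K).toReal * ((volume L).toReal / (volume K).toReal) ^ (p / n) =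
          ∫ u, (supportFn L u / supportFn K u) ^ p ∂(coneVol K) ↔
        ∃ c : ℝ, 0 < c ∧ L = c • K)

/-- Uniqueness in the even `L_p` Minkowski problem, `0 < p < n`. -/
def LpUniqueness (n : ℕ) : Prop :=
  ∀ K L : Set (EuclideanSpace ℝ (Fin n)), SymConvexBody K → SymConvexBody L →
    ∀ p : ℝ, 0 < p → p < n → lpSurface p K = lpSurface p L → K = L

end Vale.Agent.P227
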