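import Vale.Agent.P227.H880.Lp

/-! # P227: products of scaled even log-concave functions

The functional form of the logarithmic Brunn-Minkowski inequality: for even log-concave
functions `f_j` and symmetric convex bodies `K`, `L`, the integrals of `∏ f_j (exp (s_j) x)` over
`K`, `L` and the logarithmic combination. -/

open MeasureTheory Set Metric Filter Topology
open scoped ENNReal NNReal Pointwise

namespace Vale.Agent.P227

namespace H368

open H880

variable {n : ℕ}

/-- convex symmetric sets related by logarithmic combination -/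
structure Rel (t : ℝ) (A B C : Set (EV n)) : Prop where
  cA : Convex ℝ A
  cB : Convex ℝ B
  cC : Convex ℝ C
  sA : ∀ x ∈ A, -x ∈ A
  sB : ∀ x ∈ B, -x ∈ B
  log : ∀ K L : Set (EV n), SymConvexBody K → SymConvexBody L → K ⊆ closure A → L ⊆ closure B →
    logComb t K L ⊆ closure C

theorem convex_wulff (f : EV n → ℝ) : Convex ℝ (wulff f) := by
  intro x hx y hy a b ha hb hab u hu
  have h1 := hx u hu
  have h2 := hy u hu
  rw [inner_add_left, real_inner_smul_left, real_inner_smul_left]
  calc a * (inner ℝ x u : ℝ) + b * inner ℝ y u ≤ a * f u + b * f u :=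
        add_le_add (mul_le_mul_of_nonneg_left h1 ha) (mul_le_mul_of_nonneg_left h2 hb)
    _ = f u := by rw [← add_mul, hab, one_mul]

/-- a small ball around `0` is contained in the logarithmic combination -/
theorem zero_mem_interior_logComb {K L : Set (EV n)} (hK : SymConvexBody K) (hL : SymConvexBody L)
    {t : ℝ} (t0 : 0 ≤ t) (t1 : t ≤ 1) : (0 : EV n) ∈ interior (logComb t K L) := by
  obtain ⟨r, hr, hrK⟩ := hK.exists_ball
  obtain ⟨s, hs, hsL⟩ := hL.exists_ball
  rw [mem_interior]
  refine ⟨ball 0 (r ^ (1 - t) * s ^ t), ?_, isOpen_ball, mem_ball_self (by positivity)⟩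
  intro x hx u hu
  rw [mem_ball_zero_iff] at hx
  have h1 := SymConvexBody.supportFn_ge hr hK.isCompact hrK u
  have h2 := SymConvexBody.supportFn_ge hs hL.isCompact hsL u
  rw [hu, mul_one] at h1 h2
  calc (inner ℝ x u : ℝ) ≤ ‖x‖ * ‖u‖ := real_inner_le_norm x u
    _ ≤ r ^ (1 - t) * s ^ t := by rw [hu, mul_one]; exact hx.le
    _ ≤ supportFn K u ^ (1 - t) * supportFn L u ^ t := by
        apply mul_le_mul
        · exact Real.rpow_le_rpow hr.le h1 (by linarith)
        · exact Real.rpow_le_rpow hs.le h2 t0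
        · positivity
        · exact Real.rpow_nonneg (hr.le.trans h1) _

theorem closure_inter_of_zero {C R : Set (EV n)} (hC : Convex ℝ C) (hR : Convex ℝ R)
    (h1 : (0 : EV n) ∈ interior C) (h2 : (0 : EV n) ∈ interior R) :
    closure C ∩ closure R ⊆ closure (C ∩ R) := by
  rintro x ⟨hx, hy⟩
  have hs : Tendsto (fun k : ℕ => (1 - 1 / ((k : ℝ) + 2)) • x) atTop (𝓝 x) := by
    have h0 : Tendsto (fun k : ℕ => 1 / ((k : ℝ) + 2)) atTop (𝓝 0) := by
      have := tendsto_one_div_add_atTop_nhds_zero_nat (𝕜 := ℝ)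
      have h3 := (tendsto_add_atTop_iff_nat 1).2 this
      refine h3.congr fun k => ?_
      push_cast; ring_nf
    have h4 : Tendsto (fun k : ℕ => 1 - 1 / ((k : ℝ) + 2)) atTop (𝓝 (1 - 0)) := h0.const_sub 1
    simpa using h4.smul_const x
  refine mem_closure_of_tendsto hs (Eventually.of_forall fun k => ?_)
  have hk : 0 < 1 / ((k : ℝ) + 2) := by positivity
  have hk1 : 1 / ((k : ℝ) + 2) ≤ 1 := by
    rw [div_le_one (by positivity)]
    have : (0 : ℝ) ≤ k := by positivity
    linarith
  have e : (1 - 1 / ((k : ℝ) + 2)) • x = (1 / ((k : ℝ) + 2)) • (0 : EV n) +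
      (1 - 1 / ((k : ℝ) + 2)) • x := by simp
  rw [e]
  constructor
  · exact interior_subset (hC.combo_interior_closure_mem_interior h1 hx hk (by linarith) (by ring))
  · exact interior_subset (hR.combo_interior_closure_mem_interior h2 hy hk (by linarith) (by ring))

/-- interiors of convex sets and of their closures agree near an interior point of the closure -/
theorem zero_mem_interior {C : Set (EV n)} (hC : Convex ℝ C) (h : (0 : EV n) ∈ interior (closure C)) :
    (0 : EV n) ∈ interior C := by
  have hne : (interior C).Nonempty := by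
    by_contra hne
    rw [not_nonempty_iff_eq_empty] at hne
    have h1 : closure C ⊆ frontier C := by
      intro x hx
      refine ⟨hx, ?_⟩
      rw [hne]; exact fun h => h
    have h2 : volume (closure C) = 0 := measure_mono_null h1 (hC.addHaar_frontier volume)
    have h3 : 0 < volume (interior (closure C)) := isOpen_interior.measure_pos volume ⟨0, h⟩
    exact h3.ne' (measure_mono_null interior_subset h2)
  rwa [hC.interior_closure_eq_interior_of_nonempty_interior hne] at h

theorem Rel.inter {t : ℝ} (t0 : 0 ≤ t) (t1 : t ≤ 1) {A B C P Q R : Set (EV n)}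
    (h : Rel t A B C) (h' : Rel t P Q R) : Rel t (P ∩ A) (Q ∩ B) (R ∩ C) where
  cA := h'.cA.inter h.cA
  cB := h'.cB.inter h.cB
  cC := h'.cC.inter h.cC
  sA := fun x hx => ⟨h'.sA x hx.1, h.sA x hx.2⟩
  sB := fun x hx => ⟨h'.sB x hx.1, h.sB x hx.2⟩
  log := by
    intro K L hK hL h1 h2
    have k1 := h.log K L hK hL (h1.trans (closure_mono inter_subset_right))
      (h2.trans (closure_mono inter_subset_right))
    have k2 := h'.log K L hK hL (h1.trans (closure_mono inter_subset_left))
      (h2.trans (closure_mono inter_subset_left))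
    have z := zero_mem_interior_logComb hK hL t0 t1
    have z1 := zero_mem_interior h.cC (interior_mono k1 z)
    have z2 := zero_mem_interior h'.cC (interior_mono k2 z)
    exact (subset_inter k2 k1).trans (closure_inter_of_zero h'.cC h.cC z2 z1)

/-- the volume inequality for related bounded sets -/
theorem Rel.volume_le (hn : 0 < n) {t : ℝ} (t0 : 0 < t) (t1 : t < 1) {A B C : Set (EV n)}
    (h : Rel t A B C) (bA : Bornology.IsBounded A) (bB : Bornology.IsBounded B) :
    volume A ^ (1 - t) * volume B ^ t ≤ volume C := by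
  by_cases zA : volume A = 0
  · rw [zA, ENNReal.zero_rpow_of_pos (by linarith)]; simp
  by_cases zB : volume B = 0
  · rw [zB, ENNReal.zero_rpow_of_pos t0]; simp
  have body : ∀ {P : Set (EV n)}, Convex ℝ P → (∀ x ∈ P, -x ∈ P) → Bornology.IsBounded P →
      volume P ≠ 0 → SymConvexBody (closure P) := by
    intro P hP hs hb hz
    refine ⟨hP.closure, hb.isCompact_closure, ?_, ?_⟩
    · by_contra hne
      rw [not_nonempty_iff_eq_empty] at hne
      apply hz
      have h1 : P ⊆ frontier P := by
        intro x hx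
        refine ⟨subset_closure hx, fun hi => ?_⟩
        have : x ∈ interior (closure P) := interior_mono subset_closure hi
        rw [hne] at this
        exact this
      exact measure_mono_null h1 (hP.addHaar_frontier volume)
    · intro x hx
      exact map_mem_closure continuous_neg hx hs
  have b1 := body h.cA h.sA bA zA
  have b2 := body h.cB h.sB bB zB
  calc volume A ^ (1 - t) * volume B ^ t
      ≤ volume (closure A) ^ (1 - t) * volume (closure B) ^ t := by
        apply mul_le_mul'
        · exact ENNReal.rpow_le_rpow (measure_mono subset_closure) (by linarith)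
        · exact ENNReal.rpow_le_rpow (measure_mono subset_closure) t0.le
    _ ≤ volume (logComb t (closure A) (closure B)) := q1_enn hn b1 b2 t0.le t1.le
    _ ≤ volume (closure C) := measure_mono (h.log _ _ b1 b2 subset_rfl subset_rfl)
    _ ≤ volume (C ∪ frontier C) := by
        apply measure_mono
        intro x hx
        by_cases hxC : x ∈ C
        · exact Or.inl hxC
        · exact Or.inr ⟨hx, fun hi => hxC (interior_subset hi)⟩
    _ ≤ volume C + volume (frontier C) := measure_union_le _ _
    _ = volume C := by rw [h.cC.addHaar_frontier volume, add_zero]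

/-- two bodies and their logarithmic combination are related -/
theorem rel_body {K L : Set (EV n)} (hK : SymConvexBody K) (hL : SymConvexBody L) {t : ℝ}
    (t0 : 0 ≤ t) (t1 : t ≤ 1) : Rel t K L (logComb t K L) where
  cA := hK.convex
  cB := hL.convex
  cC := convex_wulff _
  sA := hK.symm
  sB := hL.symm
  log := by
    intro K' L' hK' hL' h1 h2
    rw [hK.isCompact.isClosed.closure_eq] at h1
    rw [hL.isCompact.isClosed.closure_eq] at h2
    exact (logComb_mono hK' hL' hK hL h1 h2 t0 t1).trans subset_closure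

/-- scaled level sets of an even log-concave function are related -/
theorem rel_lev {φ : EV n → ℝ} (h : EvenLogConcave φ) {t : ℝ} (t0 : 0 ≤ t) (t1 : t ≤ 1)
    (a b : ℝ) {r s : ℝ} (hr : 0 < r) (hs : 0 < s) :
    Rel t {x | r ≤ φ (Real.exp a • x)} {x | s ≤ φ (Real.exp b • x)}
      {x | r ^ (1 - t) * s ^ t ≤ φ (Real.exp ((1 - t) * a + t * b) • x)} := by
  have cv : ∀ (c r : ℝ), Convex ℝ {x : EV n | r ≤ φ (Real.exp c • x)} := by
    intro c r
    have := (lev_convex h r).is_linear_preimage (IsLinearMap.isLinearMap_smul (Real.exp c))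
    exact this
  have sy : ∀ (c r : ℝ), ∀ x ∈ {x : EV n | r ≤ φ (Real.exp c • x)},
      -x ∈ {x : EV n | r ≤ φ (Real.exp c • x)} := by
    intro c r x hx
    show r ≤ φ (Real.exp c • -x)
    rw [smul_neg, h.even]
    exact hx
  refine ⟨cv _ _, cv _ _, cv _ _, sy _ _, sy _ _, ?_⟩
  intro K L hK hL h1 h2
  set c := (1 - t) * a + t * b with hc
  -- scaling of closures
  have cl : ∀ (c r : ℝ) (x : EV n), x ∈ closure {x : EV n | r ≤ φ (Real.exp c • x)} ↔
      Real.exp c • x ∈ closure (lev φ r) := by
    intro c r x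
    have e : {x : EV n | r ≤ φ (Real.exp c • x)} =
        (Homeomorph.smulOfNeZero (Real.exp c) (Real.exp_pos c).ne') ⁻¹' lev φ r := rfl
    rw [e, ← (Homeomorph.smulOfNeZero (Real.exp c) (Real.exp_pos c).ne').preimage_closure]
    rfl
  have bK := body_smul hK (Real.exp_pos a)
  have bL := body_smul hL (Real.exp_pos b)
  intro x hx
  rw [cl]
  have hx' : Real.exp c • x ∈ logComb t (Real.exp a • K) (Real.exp b • L) := by
    intro u hu
    beta_reduce
    rw [real_inner_smul_left, supportFn_smul hK.isCompact ⟨0, hK.zero_mem⟩ (Real.exp_pos a),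
      supportFn_smul hL.isCompact ⟨0, hL.zero_mem⟩ (Real.exp_pos b),
      Real.mul_rpow (Real.exp_pos a).le (sf_nonneg hK u),
      Real.mul_rpow (Real.exp_pos b).le (sf_nonneg hL u), ← Real.exp_mul, ← Real.exp_mul]
    have h3 := hx u hu
    calc Real.exp c * (inner ℝ x u : ℝ) ≤
          Real.exp c * (supportFn K u ^ (1 - t) * supportFn L u ^ t) :=
          mul_le_mul_of_nonneg_left h3 (Real.exp_pos c).le
      _ = _ := by
          have e : Real.exp c = Real.exp (a * (1 - t)) * Real.exp (b * t) := by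
            rw [← Real.exp_add, hc]; congr 1; ring
          rw [e]; ring
  have h4 := logComb_subset_mink bK bL t0 t1 hx'
  obtain ⟨_, ⟨y, ⟨k, hk, rfl⟩, rfl⟩, _, ⟨z, ⟨l, hl, rfl⟩, rfl⟩, h5⟩ := h4
  have hk' := (cl a r k).1 (h1 hk)
  have hl' := (cl b s l).1 (h2 hl)
  have hcont : Continuous (fun p : EV n × EV n => (1 - t) • p.1 + t • p.2) := by fun_prop
  have hxy : (Real.exp a • k, Real.exp b • l) ∈ closure (lev φ r ×ˢ lev φ s) := by
    rw [closure_prod_eq]; exact ⟨hk', hl'⟩
  have h6 := map_mem_closure (f := fun p : EV n × EV n => (1 - t) • p.1 + t • p.2) hcont hxy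
    (t := lev φ (r ^ (1 - t) * s ^ t)) fun p hp => lev_comb h hr hs t0 t1 hp.1 hp.2
  rw [← h5]
  exact h6

/-- scaling preserves even log-concave functions -/
theorem elc_scale {φ : EV n → ℝ} (h : EvenLogConcave φ) (c : ℝ) :
    EvenLogConcave (fun x => φ (Real.exp c • x)) where
  nonneg := fun x => h.nonneg _
  even := fun x => by rw [smul_neg, h.even]
  logConcave := by
    intro x y s h0 h1
    have := h.logConcave (Real.exp c • x) (Real.exp c • y) s h0 h1
    rwa [smul_comm (1 - s), smul_comm s, ← smul_add] at this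

/-- layer cake for a product -/
theorem layer {ι : Type*} [DecidableEq ι] (s : Finset ι) {j : ι} (hj : j ∉ s) {f : ι → EV n → ℝ}
    (hf : ∀ i, EvenLogConcave (f i)) (A : Set (EV n)) :
    ∫⁻ x in A, ∏ i ∈ insert j s, ENNReal.ofReal (f i x) =
      ∫⁻ r in Ioi (0 : ℝ), ∫⁻ x in {x | r ≤ f j x} ∩ A, ∏ i ∈ s, ENNReal.ofReal (f i x) := by
  have hm : AEMeasurable (fun x => ∏ i ∈ s, ENNReal.ofReal (f i x)) volume :=
    Finset.aemeasurable_fun_prod _ fun i _ => (aemeas (hf i)).ennreal_ofReal
  have e1 : ∫⁻ x in A, ∏ i ∈ insert j s, ENNReal.ofReal (f i x) =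
      ∫⁻ x, ENNReal.ofReal (f j x) ∂((volume.restrict A).withDensity
        fun x => ∏ i ∈ s, ENNReal.ofReal (f i x)) := by
    rw [lintegral_withDensity_eq_lintegral_mul₀ hm.restrict (aemeas (hf j)).restrict.ennreal_ofReal]
    apply lintegral_congr
    intro x
    rw [Finset.prod_insert hj, Pi.mul_apply, mul_comm]
  have hac : (volume.restrict A).withDensity (fun x => ∏ i ∈ s, ENNReal.ofReal (f i x)) ≪ volume :=
    (withDensity_absolutelyContinuous _ _).trans
      (Measure.absolutelyContinuous_of_le Measure.restrict_le_self)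
  rw [e1, lintegral_eq_lintegral_meas_le _ (Eventually.of_forall (hf j).nonneg)
    ((aemeas (hf j)).mono_ac hac)]
  apply lintegral_congr
  intro r
  have hN : NullMeasurableSet {x | r ≤ f j x} (volume : Measure (EV n)) :=
    (lev_convex (hf j) r).nullMeasurableSet volume
  rw [withDensity_apply₀ _ (hN.mono_ac Measure.absolutelyContinuous_restrict),
    Measure.restrict_restrict₀ (hN.mono_ac Measure.absolutelyContinuous_restrict)]

/-- **functional logarithmic Brunn-Minkowski inequality**, abstract form -/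
theorem core (hn : 0 < n) {t : ℝ} (t0 : 0 < t) (t1 : t < 1) {ι : Type*} [DecidableEq ι]
    {f g h : ι → EV n → ℝ} (hf : ∀ i, EvenLogConcave (f i)) (hg : ∀ i, EvenLogConcave (g i))
    (hh : ∀ i, EvenLogConcave (h i))
    (hrel : ∀ i, ∀ r s : ℝ, 0 < r → 0 < s →
      Rel t {x | r ≤ f i x} {x | s ≤ g i x} {x | r ^ (1 - t) * s ^ t ≤ h i x})
    (S : Finset ι) : ∀ A B C : Set (EV n), Rel t A B C → Bornology.IsBounded A →
      Bornology.IsBounded B →
      (∫⁻ x in A, ∏ i ∈ S, ENNReal.ofReal (f i x)) ^ (1 - t) *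
        (∫⁻ x in B, ∏ i ∈ S, ENNReal.ofReal (g i x)) ^ t ≤
      ∫⁻ x in C, ∏ i ∈ S, ENNReal.ofReal (h i x) := by
  induction S using Finset.induction_on with
  | empty =>
    intro A B C hR bA bB
    simp only [Finset.prod_empty, lintegral_const, one_mul, Measure.restrict_apply_univ]
    exact hR.volume_le hn t0 t1 bA bB
  | insert j S hj ih =>
    intro A B C hR bA bB
    rw [layer S hj hf A, layer S hj hg B, layer S hj hh C]
    have anti : ∀ (u : ι → EV n → ℝ) (D : Set (EV n)),
        Antitone (fun r => ∫⁻ x in {x | r ≤ u j x} ∩ D, ∏ i ∈ S, ENNReal.ofReal (u i x)) := by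
      intro u D a b hab
      apply lintegral_mono_set
      exact inter_subset_inter_left _ fun x hx => le_trans hab hx
    refine pl_mul t0 t1 _ _ _ (anti f A) (anti g B) (anti h C) ?_
    intro r s hr hs
    exact ih _ _ _ (hR.inter t0.le t1.le (hrel j r s hr hs)) (bA.subset inter_subset_right)
      (bB.subset inter_subset_right)

/-- **functional logarithmic Brunn-Minkowski inequality** -/
theorem log_bm_fun (hn : 0 < n) {ι : Type*} [Fintype ι] {f : ι → EV n → ℝ}
    (hf : ∀ i, EvenLogConcave (f i)) {K L : Set (EV n)} (hK : SymConvexBody K)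
    (hL : SymConvexBody L) {t : ℝ} (t0 : 0 ≤ t) (t1 : t ≤ 1) (a b : ι → ℝ) :
    (∫⁻ x in K, ∏ i, ENNReal.ofReal (f i (Real.exp (a i) • x))) ^ (1 - t) *
        (∫⁻ x in L, ∏ i, ENNReal.ofReal (f i (Real.exp (b i) • x))) ^ t ≤
      ∫⁻ x in logComb t K L,
        ∏ i, ENNReal.ofReal (f i (Real.exp ((1 - t) * a i + t * b i) • x)) := by
  classical
  rcases t0.eq_or_lt with h0' | h0'
  · subst h0'
    simp only [sub_zero, ENNReal.rpow_one, ENNReal.rpow_zero, mul_one, one_mul, zero_mul, add_zero]
    apply lintegral_mono_set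
    apply subset_wulff hK.isCompact
    intro u _
    simp
  rcases t1.eq_or_lt with h1' | h1'
  · subst h1'
    simp only [sub_self, ENNReal.rpow_one, ENNReal.rpow_zero, one_mul, zero_mul, zero_add]
    apply lintegral_mono_set
    apply subset_wulff hL.isCompact
    intro u _
    simp
  exact core hn h0' h1' (f := fun i x => f i (Real.exp (a i) • x))
    (g := fun i x => f i (Real.exp (b i) • x))
    (h := fun i x => f i (Real.exp ((1 - t) * a i + t * b i) • x))
    (fun i => elc_scale (hf i) _) (fun i => elc_scale (hf i) _) (fun i => elc_scale (hf i) _)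
    (fun i r s hr hs => rel_lev (hf i) t0 t1 (a i) (b i) hr hs) Finset.univ K L (logComb t K L)
    (rel_body hK hL t0 t1) hK.isCompact.isBounded hL.isCompact.isBounded

theorem body_ball {R : ℝ} (hR : 0 < R) : SymConvexBody (closedBall (0 : EV n) R) where
  convex := convex_closedBall _ _
  isCompact := isCompact_closedBall _ _
  nonempty_interior := by
    refine ⟨0, ?_⟩
    rw [mem_interior]
    exact ⟨ball 0 R, ball_subset_closedBall, isOpen_ball, mem_ball_self hR⟩
  symm := by
    intro x hx
    rw [mem_closedBall_zero_iff] at hx ⊢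
    rwa [norm_neg]

/-- **log-concavity in all scaling parameters**, integrals over the whole space -/
theorem log_bm_space (hn : 0 < n) {ι : Type*} [Fintype ι] {f : ι → EV n → ℝ}
    (hf : ∀ i, EvenLogConcave (f i)) {t : ℝ} (t0 : 0 ≤ t) (t1 : t ≤ 1) (a b : ι → ℝ) :
    (∫⁻ x, ∏ i, ENNReal.ofReal (f i (Real.exp (a i) • x))) ^ (1 - t) *
        (∫⁻ x, ∏ i, ENNReal.ofReal (f i (Real.exp (b i) • x))) ^ t ≤
      ∫⁻ x, ∏ i, ENNReal.ofReal (f i (Real.exp ((1 - t) * a i + t * b i) • x)) := by
  rcases t0.eq_or_lt with h0' | h0'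
  · subst h0'; simp
  rcases t1.eq_or_lt with h1' | h1'
  · subst h1'; simp
  set F : (ι → ℝ) → EV n → ℝ≥0∞ := fun c x => ∏ i, ENNReal.ofReal (f i (Real.exp (c i) • x))
    with hF
  have hU : (⋃ k : ℕ, closedBall (0 : EV n) ((k : ℝ) + 1)) = univ := by
    apply eq_univ_of_forall
    intro x
    obtain ⟨k, hk⟩ := exists_nat_ge ‖x‖
    refine mem_iUnion.2 ⟨k, ?_⟩
    rw [mem_closedBall_zero_iff]
    linarith
  have hmono : Monotone fun k : ℕ => closedBall (0 : EV n) ((k : ℝ) + 1) := by
    intro k l hkl
    apply closedBall_subset_closedBall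
    have : (k : ℝ) ≤ l := by exact_mod_cast hkl
    linarith
  have lim : ∀ c : ι → ℝ, Tendsto (fun k : ℕ => ∫⁻ x in closedBall (0 : EV n) ((k : ℝ) + 1), F c x)
      atTop (𝓝 (∫⁻ x, F c x)) := by
    intro c
    have hm : AEMeasurable (F c) volume :=
      Finset.aemeasurable_fun_prod _ fun i _ => (aemeas (elc_scale (hf i) (c i))).ennreal_ofReal
    have h1 := tendsto_atTop_iSup (f := fun k : ℕ =>
      ∫⁻ x in closedBall (0 : EV n) ((k : ℝ) + 1), F c x)
      (fun k l hkl => lintegral_mono_set (hmono hkl))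
    have h2 : ⨆ k : ℕ, ∫⁻ x in closedBall (0 : EV n) ((k : ℝ) + 1), F c x = ∫⁻ x, F c x := by
      rw [← setLIntegral_iUnion_of_directed _ hmono.directed_le, hU, Measure.restrict_univ]
    rwa [h2] at h1
  by_cases z1 : ∫⁻ x, F a x = 0
  · rw [z1, ENNReal.zero_rpow_of_pos (by linarith)]; simp
  by_cases z2 : ∫⁻ x, F b x = 0
  · rw [z2, ENNReal.zero_rpow_of_pos h0']; simp
  have l1 := (ENNReal.continuous_rpow_const (y := 1 - t)).continuousAt.tendsto.comp (lim a)
  have l2 := (ENNReal.continuous_rpow_const (y := t)).continuousAt.tendsto.comp (lim b)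
  have n1 : (∫⁻ x, F a x) ^ (1 - t) ≠ 0 := by
    rw [Ne, ENNReal.rpow_eq_zero_iff]
    push Not
    exact ⟨fun h => absurd h z1, fun _ => by linarith⟩
  have n2 : (∫⁻ x, F b x) ^ t ≠ 0 := by
    rw [Ne, ENNReal.rpow_eq_zero_iff]
    push Not
    exact ⟨fun h => absurd h z2, fun _ => by linarith⟩
  have l3 := ENNReal.Tendsto.mul l1 (Or.inl n1) l2 (Or.inl n2)
  refine le_of_tendsto l3 (Eventually.of_forall fun k => ?_)
  have hb := body_ball (n := n) (R := (k : ℝ) + 1) (by positivity)
  exact (log_bm_fun hn hf hb hb t0 t1 a b).trans (setLIntegral_le_lintegral _ _)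

end H368

end Vale.Agent.P227
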