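import Vale.Agent.P227.H880.Lp
import Vale.Agent.P227.Polar

/-! # P227: the logarithmic Minkowski inequality for all symmetric convex bodies

Variational argument: the difference quotients of the volumes of the Wulff bodies of
`h_K exp (-ε log (h_L / h_K))` against the integral of `log (h_L / h_K)` over the cone-volume
measure. -/

open MeasureTheory Set Metric Filter Topology
open scoped ENNReal NNReal Pointwise

namespace Vale.Agent.P227

namespace H368

variable {n : ℕ}

/-- volume as a real number -/
noncomputable def evol (K : Set (EV n)) : ℝ := (volume K).toReal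

theorem evol_pos {K : Set (EV n)} (hK : SymConvexBody K) : 0 < evol K := by
  apply ENNReal.toReal_pos _ hK.isCompact.measure_lt_top.ne
  have h1 : 0 < volume (interior K) := isOpen_interior.measure_pos volume hK.nonempty_interior
  exact (h1.trans_le (measure_mono interior_subset)).ne'

theorem exists_supportFn {K : Set (EV n)} (hK : IsCompact K) (hne : K.Nonempty) (u : EV n) :
    ∃ x ∈ K, inner ℝ x u = supportFn K u := by
  obtain ⟨x, hx, hx2⟩ := (hK.image (f := fun x => inner ℝ x u) (by fun_prop)).sSup_mem
    (hne.image _)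
  exact ⟨x, hx, hx2⟩

theorem supportFn_smul {K : Set (EV n)} (hK : IsCompact K) (hne : K.Nonempty) {r : ℝ}
    (hr : 0 ≤ r) (u : EV n) : supportFn K (r • u) = r * supportFn K u := by
  apply le_antisymm
  · apply supportFn_le hne
    intro x hx
    rw [inner_smul_right]
    exact mul_le_mul_of_nonneg_left (inner_le_supportFn hK hx u) hr
  · obtain ⟨x, hx, hx2⟩ := exists_supportFn hK hne u
    rw [← hx2, ← inner_smul_right]
    exact inner_le_supportFn hK hx _

/-- a closed convex set containing the origin is cut out by its support function -/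
theorem mem_of_inner_le_supportFn {K : Set (EV n)} (hK : IsCompact K) (hc : Convex ℝ K)
    (hne : K.Nonempty) {x : EV n} (h : ∀ u : EV n, ‖u‖ = 1 → inner ℝ x u ≤ supportFn K u) :
    x ∈ K := by
  by_contra hx
  obtain ⟨f, c, hf1, hf2⟩ := geometric_hahn_banach_closed_point hc hK.isClosed hx
  set w := (InnerProductSpace.toDual ℝ (EV n)).symm f with hw
  have hfw : ∀ y, f y = inner ℝ y w := by
    intro y
    rw [real_inner_comm]
    exact (InnerProductSpace.toDual_symm_apply).symm
  have hw0 : w ≠ 0 := by
    intro h0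
    obtain ⟨y, hy⟩ := hne
    have h1 := hf1 y hy
    rw [hfw, h0] at h1 hf2
    simp at h1 hf2
    linarith
  have hw1 : 0 < ‖w‖ := norm_pos_iff.2 hw0
  have h1 := h (‖w‖⁻¹ • w) (by rw [norm_smul, norm_inv, norm_norm]; field_simp)
  rw [supportFn_smul hK hne (by positivity), inner_smul_right] at h1
  have h2 : inner ℝ x w ≤ supportFn K w := le_of_mul_le_mul_left h1 (by positivity)
  have h3 : supportFn K w ≤ c := by
    apply supportFn_le hne
    intro y hy
    rw [← hfw]
    exact (hf1 y hy).le
  rw [hfw] at hf2
  linarith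

theorem _root_.Vale.Agent.P227.SymConvexBody.wulff_supportFn {K : Set (EV n)} (hK : SymConvexBody K) :
    wulff (supportFn K) = K := by
  ext x
  constructor
  · intro hx
    exact mem_of_inner_le_supportFn hK.isCompact hK.convex ⟨0, hK.zero_mem⟩ hx
  · intro hx u _
    exact inner_le_supportFn hK.isCompact hx u

/-- Wulff bodies of positive even continuous functions are symmetric convex bodies. -/
theorem wulff_symConvexBody {f : EV n → ℝ} {a b : ℝ} (ha : 0 < a)
    (hfa : ∀ u, ‖u‖ = 1 → a ≤ f u) (hfb : ∀ u, ‖u‖ = 1 → f u ≤ b)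
    (heven : ∀ u, f (-u) = f u) : SymConvexBody (wulff f) where
  convex := by
    intro x hx y hy s t hs ht hst u hu
    rw [inner_add_left, real_inner_smul_left, real_inner_smul_left]
    calc s * inner ℝ x u + t * inner ℝ y u ≤ s * f u + t * f u :=
          add_le_add (mul_le_mul_of_nonneg_left (hx u hu) hs)
            (mul_le_mul_of_nonneg_left (hy u hu) ht)
      _ = (s + t) * f u := by ring
      _ = f u := by rw [hst, one_mul]
  isCompact := by
    apply Metric.isCompact_of_isClosed_isBounded
    · have : wulff f = ⋂ (u : EV n) (_ : ‖u‖ = 1), {x | inner ℝ x u ≤ f u} := by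
        ext x
        simp [wulff]
      rw [this]
      refine isClosed_iInter fun u => isClosed_iInter fun _ => ?_
      exact isClosed_le (by fun_prop) continuous_const
    · rw [isBounded_iff_forall_norm_le]
      refine ⟨|b|, fun x hx => ?_⟩
      by_cases hx0 : x = 0
      · subst hx0; simp
      · have hx1 : 0 < ‖x‖ := norm_pos_iff.2 hx0
        have h1 : ‖‖x‖⁻¹ • x‖ = 1 := by rw [norm_smul, norm_inv, norm_norm]; field_simp
        have h2 := hx _ h1
        rw [inner_smul_right, real_inner_self_eq_norm_sq] at h2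
        have h3 := hfb _ h1
        have h4 : ‖x‖⁻¹ * ‖x‖ ^ 2 = ‖x‖ := by field_simp
        rw [h4] at h2
        exact (h2.trans h3).trans (le_abs_self b)
  nonempty_interior := by
    refine ⟨0, ?_⟩
    rw [mem_interior]
    refine ⟨ball 0 a, ?_, isOpen_ball, mem_ball_self ha⟩
    intro x hx u hu
    rw [mem_ball_zero_iff] at hx
    calc inner ℝ x u ≤ ‖x‖ * ‖u‖ := real_inner_le_norm x u
      _ = ‖x‖ := by rw [hu, mul_one]
      _ ≤ a := hx.le
      _ ≤ f u := hfa u hu
  symm := by
    intro x hx u hu
    rw [inner_neg_left, ← inner_neg_right, ← heven]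
    exact hx (-u) (by rwa [norm_neg])

/-- gauge of a Wulff body is attained by some direction -/
theorem gauge_wulff_attained (hn : 0 < n) {f : EV n → ℝ} (hf : ContinuousOn f (sphere 0 1))
    {a b : ℝ}
    (ha : 0 < a) (hfa : ∀ u, ‖u‖ = 1 → a ≤ f u) (hfb : ∀ u, ‖u‖ = 1 → f u ≤ b)
    (heven : ∀ u, f (-u) = f u) (x : EV n) :
    (∀ u : EV n, ‖u‖ = 1 → inner ℝ x u ≤ gauge (wulff f) x * f u) ∧
    ∃ u : EV n, ‖u‖ = 1 ∧ inner ℝ x u = gauge (wulff f) x * f u := by
  have hW := wulff_symConvexBody ha hfa hfb heven
  set g := gauge (wulff f) x with hg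
  have hg0 : 0 ≤ g := gauge_nonneg _
  have hle : ∀ u : EV n, ‖u‖ = 1 → inner ℝ x u ≤ g * f u := by
    intro u hu
    have hfu : 0 < f u := lt_of_lt_of_le ha (hfa u hu)
    have key : ∀ r : ℝ, g < r → inner ℝ x u ≤ r * f u := by
      intro r hr
      obtain ⟨c, hc0, hcr, y, hy, hyx⟩ := exists_lt_of_gauge_lt (absorbent_nhds_zero hW.nhds) hr
      have h1 := hy u hu
      have h2 : x = c • y := hyx.symm
      rw [h2, real_inner_smul_left]
      calc c * inner ℝ y u ≤ c * f u := mul_le_mul_of_nonneg_left h1 hc0.le
        _ ≤ r * f u := mul_le_mul_of_nonneg_right hcr.le hfu.le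
    have h3 : inner ℝ x u / f u ≤ g := by
      apply le_of_forall_gt_imp_ge_of_dense
      intro r hr
      rw [div_le_iff₀ hfu]
      exact key r hr
    rwa [div_le_iff₀ hfu] at h3
  refine ⟨hle, ?_⟩
  have hcomp : IsCompact (sphere (0 : EV n) 1) := isCompact_sphere _ _
  have hne : (sphere (0 : EV n) 1).Nonempty := by
    refine ⟨EuclideanSpace.single ⟨0, hn⟩ (1 : ℝ), ?_⟩
    simp
  have hcont : ContinuousOn (fun u : EV n => inner ℝ x u / f u) (sphere 0 1) := by
    apply ContinuousOn.div (by fun_prop) hf
    intro u hu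
    have := hfa u (mem_sphere_zero_iff_norm.1 hu)
    linarith
  obtain ⟨u, hu, hmax⟩ := hcomp.exists_isMaxOn hne hcont
  have hu1 : ‖u‖ = 1 := mem_sphere_zero_iff_norm.1 hu
  have hfu : 0 < f u := lt_of_lt_of_le ha (hfa u hu1)
  refine ⟨u, hu1, le_antisymm (hle u hu1) ?_⟩
  set m := inner ℝ x u / f u with hm
  have hmx : ∀ v : EV n, ‖v‖ = 1 → inner ℝ x v ≤ m * f v := by
    intro v hv
    have h1 : inner ℝ x v / f v ≤ m := hmax (mem_sphere_zero_iff_norm.2 hv)
    have hfv : 0 < f v := lt_of_lt_of_le ha (hfa v hv)
    rwa [div_le_iff₀ hfv] at h1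
  have hm0 : 0 ≤ m := by
    have h1 := hmx u hu1
    have h2 := hmx (-u) (by rwa [norm_neg])
    rw [heven, inner_neg_right] at h2
    by_contra hneg
    push Not at hneg
    have : m * f u < 0 := mul_neg_of_neg_of_pos hneg hfu
    linarith
  have hgm : g ≤ m := by
    apply le_of_forall_gt_imp_ge_of_dense
    intro r hr
    have hr0 : 0 < r := lt_of_le_of_lt hm0 hr
    apply gauge_le_of_mem hr0.le
    rw [mem_smul_set_iff_inv_smul_mem₀ hr0.ne']
    intro v hv
    have hfv : 0 < f v := lt_of_lt_of_le ha (hfa v hv)
    rw [real_inner_smul_left, inv_mul_le_iff₀ hr0]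
    exact (hmx v hv).trans (mul_le_mul_of_nonneg_right hr.le hfv.le)
  have : inner ℝ x u = m * f u := by rw [hm]; field_simp
  rw [this]
  exact mul_le_mul_of_nonneg_right hgm hfu.le

theorem _root_.Vale.Agent.P227.SymConvexBody.gauge_pos {K : Set (EV n)} (hK : SymConvexBody K) {x : EV n}
    (hx : x ≠ 0) : 0 < gauge K x := by
  rw [_root_.gauge_pos (absorbent_nhds_zero hK.nhds)]
  · exact hx
  · exact (NormedSpace.isVonNBounded_iff ℝ).2 hK.isCompact.isBounded

theorem _root_.Vale.Agent.P227.SymConvexBody.continuous_gauge {K : Set (EV n)} (hK : SymConvexBody K) :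
    Continuous (gauge K) := _root_.continuous_gauge hK.convex hK.nhds

/-- every nonzero point has a unit outer normal -/
theorem _root_.Vale.Agent.P227.SymConvexBody.exists_normal {K : Set (EV n)} (hK : SymConvexBody K) (hn : 0 < n)
    (x : EV n) : (∀ u : EV n, ‖u‖ = 1 → inner ℝ x u ≤ gauge K x * supportFn K u) ∧
      ∃ u : EV n, ‖u‖ = 1 ∧ inner ℝ x u = gauge K x * supportFn K u := by
  obtain ⟨r, hr0, hr⟩ := hK.exists_ball
  obtain ⟨R, hR0, hR⟩ := hK.exists_bound
  have h := gauge_wulff_attained hn hK.continuous_supportFn.continuousOn hr0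
    (fun u hu => by
      have := SymConvexBody.supportFn_ge hr0 hK.isCompact hr u
      rwa [hu, mul_one] at this)
    (b := R) (fun u hu => by
      have := hK.supportFn_le_norm hR u
      rwa [hu, mul_one] at this)
    hK.supportFn_neg x
  rwa [hK.wulff_supportFn] at h

/-- gradient of the gauge in terms of the normal -/
theorem _root_.Vale.Agent.P227.SymConvexBody.fderiv_gauge {K : Set (EV n)} (hK : SymConvexBody K) (hn : 0 < n)
    {x : EV n} (hd : DifferentiableAt ℝ (gauge K) x) {w : EV n} (hw : ‖w‖ = 1)
    (hxw : inner ℝ x w = gauge K x * supportFn K w) (y : EV n) :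
    fderiv ℝ (gauge K) x y = (supportFn K w)⁻¹ * inner ℝ y w := by
  have hw0 : w ≠ 0 := by
    intro h; rw [h] at hw; simp at hw
  have hpos := hK.supportFn_pos hw0
  set ℓ : EV n →L[ℝ] ℝ := (supportFn K w)⁻¹ • (innerSL ℝ w) with hℓ
  have hℓa : ∀ y, ℓ y = (supportFn K w)⁻¹ * inner ℝ y w := by
    intro y
    rw [hℓ]
    simp [real_inner_comm]
  have hmin : IsLocalMin (fun y => gauge K y - ℓ y) x := by
    apply Filter.Eventually.of_forall
    intro y
    simp only
    have h1 := (hK.exists_normal hn y).1 w hw
    rw [hℓa, hℓa, hxw]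
    have e1 : (supportFn K w)⁻¹ * (gauge K x * supportFn K w) = gauge K x := by
      field_simp
    have e2 : (supportFn K w)⁻¹ * inner ℝ y w ≤ gauge K y := by
      rw [inv_mul_le_iff₀ hpos, mul_comm]
      exact h1
    rw [e1]
    linarith
  have hder := hmin.fderiv_eq_zero
  have hsub : fderiv ℝ (fun y => gauge K y - ℓ y) x = fderiv ℝ (gauge K) x - ℓ := by
    have := fderiv_sub hd ℓ.differentiableAt (x := x)
    rw [ℓ.fderiv] at this
    exact this
  rw [hsub, sub_eq_zero] at hder
  rw [hder, hℓa]

/-- at a point where the gauge is differentiable the unit normal is unique -/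
theorem _root_.Vale.Agent.P227.SymConvexBody.normal_unique {K : Set (EV n)} (hK : SymConvexBody K) (hn : 0 < n)
    {x : EV n} (hd : DifferentiableAt ℝ (gauge K) x) {u v : EV n} (hu : ‖u‖ = 1)
    (hv : ‖v‖ = 1) (hxu : inner ℝ x u = gauge K x * supportFn K u)
    (hxv : inner ℝ x v = gauge K x * supportFn K v) : u = v := by
  have h1 := hK.fderiv_gauge hn hd hu hxu
  have h2 := hK.fderiv_gauge hn hd hv hxv
  have hu0 : u ≠ 0 := by
    intro h; rw [h] at hu; simp at hu
  have hv0 : v ≠ 0 := by
    intro h; rw [h] at hv; simp at hv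
  have pu := hK.supportFn_pos hu0
  have pv := hK.supportFn_pos hv0
  have h3 : (supportFn K u)⁻¹ • u = (supportFn K v)⁻¹ • v := by
    apply ext_inner_left ℝ
    intro y
    rw [inner_smul_right, inner_smul_right, ← h1 y, ← h2 y]
  have h4 : (supportFn K u)⁻¹ = (supportFn K v)⁻¹ := by
    have := congrArg norm h3
    rw [norm_smul, norm_smul, hu, hv, mul_one, mul_one, Real.norm_of_nonneg (by positivity),
      Real.norm_of_nonneg (by positivity)] at this
    exact this
  rw [h4] at h3
  exact smul_right_injective _ (by positivity) h3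

theorem _root_.Vale.Agent.P227.SymConvexBody.ae_differentiable {K : Set (EV n)} (hK : SymConvexBody K) :
    ∀ᵐ x : EV n, DifferentiableAt ℝ (gauge K) x := by
  obtain ⟨r, hr0, hr⟩ := hK.exists_ball
  have hlip : LipschitzWith (r⁻¹).toNNReal (gauge K) := by
    apply LipschitzWith.of_le_add_mul
    intro x y
    have h1 := gauge_add_le hK.convex (absorbent_nhds_zero hK.nhds) y (x - y)
    have h2 : y + (x - y) = x := by abel
    rw [h2] at h1
    have h3 : gauge K (x - y) ≤ r⁻¹ * dist x y := by
      rw [dist_eq_norm]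
      have := gauge_mono (absorbent_nhds_zero (closedBall_mem_nhds (0 : EV n) hr0)) hr (x - y)
      refine this.trans ?_
      rw [gauge_closedBall hr0.le]
      rw [div_eq_inv_mul]
    rw [Real.coe_toNNReal _ (by positivity)]
    linarith
  exact hlip.ae_differentiableAt

theorem ne_zero_of_norm_one {u : EV n} (hu : ‖u‖ = 1) : u ≠ 0 := by
  intro h; rw [h] at hu; simp at hu

/-- log of the ratio of support functions -/
noncomputable def lratio (K L : Set (EV n)) (u : EV n) : ℝ :=
  Real.log (supportFn L u) - Real.log (supportFn K u)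

theorem lratio_continuousOn {K L : Set (EV n)} (hK : SymConvexBody K) (hL : SymConvexBody L) :
    ContinuousOn (lratio K L) (sphere 0 1) := by
  apply ContinuousOn.sub
  · apply ContinuousOn.log hL.continuous_supportFn.continuousOn
    intro u hu
    exact (hL.supportFn_pos (ne_zero_of_norm_one (mem_sphere_zero_iff_norm.1 hu))).ne'
  · apply ContinuousOn.log hK.continuous_supportFn.continuousOn
    intro u hu
    exact (hK.supportFn_pos (ne_zero_of_norm_one (mem_sphere_zero_iff_norm.1 hu))).ne'

theorem lratio_bound {K L : Set (EV n)} (hK : SymConvexBody K) (hL : SymConvexBody L) :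
    ∃ B : ℝ, 0 ≤ B ∧ ∀ u : EV n, ‖u‖ = 1 → |lratio K L u| ≤ B := by
  obtain ⟨B, hB⟩ := (isCompact_sphere (0 : EV n) 1).exists_bound_of_continuousOn
    (lratio_continuousOn hK hL)
  refine ⟨max B 0, le_max_right _ _, fun u hu => ?_⟩
  have := hB u (mem_sphere_zero_iff_norm.2 hu)
  rw [Real.norm_eq_abs] at this
  exact this.trans (le_max_left _ _)

/-- the perturbed function `h_K exp(-ε log(h_L/h_K))` -/
noncomputable def pert (K L : Set (EV n)) (ε : ℝ) (u : EV n) : ℝ :=
  supportFn K u * Real.exp (-(ε * lratio K L u))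

theorem pert_facts {K L : Set (EV n)} (hK : SymConvexBody K) (hL : SymConvexBody L) (ε : ℝ) :
    ∃ a b : ℝ, 0 < a ∧ (∀ u, ‖u‖ = 1 → a ≤ pert K L ε u) ∧ (∀ u, ‖u‖ = 1 → pert K L ε u ≤ b) ∧
      (∀ u, pert K L ε (-u) = pert K L ε u) ∧ ContinuousOn (pert K L ε) (sphere 0 1) := by
  have hcont : ContinuousOn (pert K L ε) (sphere 0 1) := by
    apply ContinuousOn.mul hK.continuous_supportFn.continuousOn
    apply Real.continuous_exp.comp_continuousOn
    exact (continuousOn_const.mul (lratio_continuousOn hK hL)).neg
  obtain ⟨r, hr0, hr⟩ := hK.exists_ball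
  obtain ⟨R, hR0, hR⟩ := hK.exists_bound
  obtain ⟨B, hB0, hB⟩ := lratio_bound hK hL
  have hexp : ∀ u : EV n, ‖u‖ = 1 → |ε * lratio K L u| ≤ |ε| * B := by
    intro u hu
    rw [abs_mul]
    exact mul_le_mul_of_nonneg_left (hB u hu) (abs_nonneg _)
  refine ⟨r * Real.exp (-(|ε| * B)), R * Real.exp (|ε| * B), by positivity, ?_, ?_, ?_, hcont⟩
  · intro u hu
    have h1 := SymConvexBody.supportFn_ge hr0 hK.isCompact hr u
    rw [hu, mul_one] at h1
    apply mul_le_mul h1 _ (Real.exp_pos _).le (by linarith)
    apply Real.exp_le_exp.2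
    have := (abs_le.1 (hexp u hu)).2
    linarith
  · intro u hu
    have h1 := hK.supportFn_le_norm hR u
    rw [hu, mul_one] at h1
    apply mul_le_mul h1 _ (Real.exp_pos _).le hR0.le
    apply Real.exp_le_exp.2
    have := (abs_le.1 (hexp u hu)).1
    linarith
  · intro u
    unfold pert lratio
    rw [hK.supportFn_neg, hL.supportFn_neg]

/-- the perturbed Wulff body -/
noncomputable def pbody (K L : Set (EV n)) (ε : ℝ) : Set (EV n) := wulff (pert K L ε)

theorem pbody_scb {K L : Set (EV n)} (hK : SymConvexBody K) (hL : SymConvexBody L) (ε : ℝ) :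
    SymConvexBody (pbody K L ε) := by
  obtain ⟨a, b, ha, h1, h2, h3, h4⟩ := pert_facts hK hL ε
  exact wulff_symConvexBody ha h1 h2 h3

/-- two-sided bound for the logarithmic derivative of the gauge -/
theorem pbody_gauge (hn : 0 < n) {K L : Set (EV n)} (hK : SymConvexBody K)
    (hL : SymConvexBody L) (ε : ℝ) {x : EV n} (hx : x ≠ 0) :
    (∀ v : EV n, ‖v‖ = 1 → inner ℝ x v = gauge K x * supportFn K v →
      ε * lratio K L v ≤ Real.log (gauge (pbody K L ε) x) - Real.log (gauge K x)) ∧
    ∃ u : EV n, ‖u‖ = 1 ∧ Real.log (gauge (pbody K L ε) x) - Real.log (gauge K x) =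
      Real.log (inner ℝ x u / (gauge K x * supportFn K u)) + ε * lratio K L u ∧
      0 < inner ℝ x u ∧ inner ℝ x u ≤ gauge K x * supportFn K u := by
  obtain ⟨a, b, ha, h1, h2, h3, h4⟩ := pert_facts hK hL ε
  have hP := pbody_scb hK hL ε
  have hg := hK.gauge_pos hx
  have hgP := hP.gauge_pos hx
  obtain ⟨hle, u, hu, hxu⟩ := gauge_wulff_attained hn h4 ha h1 h2 h3 x
  change ∀ u : EV n, ‖u‖ = 1 → inner ℝ x u ≤ gauge (pbody K L ε) x * pert K L ε u at hle
  change inner ℝ x u = gauge (pbody K L ε) x * pert K L ε u at hxu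
  constructor
  · intro v hv hxv
    have hKv := hK.supportFn_pos (ne_zero_of_norm_one hv)
    have h5 := hle v hv
    rw [hxv, pert] at h5
    have h6 := Real.log_le_log (by positivity) h5
    rw [Real.log_mul hg.ne' hKv.ne', Real.log_mul hgP.ne' (by positivity),
      Real.log_mul hKv.ne' (Real.exp_pos _).ne', Real.log_exp] at h6
    linarith
  · have hKu := hK.supportFn_pos (ne_zero_of_norm_one hu)
    have hpos : 0 < inner ℝ x u := by
      rw [hxu]
      exact mul_pos hgP (lt_of_lt_of_le ha (h1 u hu))
    refine ⟨u, hu, ?_, hpos, (hK.exists_normal hn x).1 u hu⟩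
    rw [Real.log_div hpos.ne' (by positivity), hxu, pert,
      Real.log_mul hgP.ne' (by positivity), Real.log_mul hKu.ne' (Real.exp_pos _).ne',
      Real.log_exp, Real.log_mul hg.ne' hKu.ne']
    ring

/-- pointwise limit of the difference quotient at points with a unique normal -/
theorem pbody_tendsto (hn : 0 < n) {K L : Set (EV n)} (hK : SymConvexBody K)
    (hL : SymConvexBody L) {x : EV n} (hx : x ≠ 0) {v : EV n} (hv : ‖v‖ = 1)
    (hxv : inner ℝ x v = gauge K x * supportFn K v)
    (huniq : ∀ w : EV n, ‖w‖ = 1 → inner ℝ x w = gauge K x * supportFn K w → w = v)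
    (ε : ℕ → ℝ) (hε : ∀ k, 0 < ε k) (hε0 : Tendsto ε atTop (𝓝 0)) :
    Tendsto (fun k => (Real.log (gauge (pbody K L (ε k)) x) - Real.log (gauge K x)) / ε k) atTop
      (𝓝 (lratio K L v)) := by
  have hg := hK.gauge_pos hx
  obtain ⟨B, hB0, hB⟩ := lratio_bound hK hL
  choose hlow u hu heq hpos hle using fun k => pbody_gauge hn hK hL (ε k) hx
  set c : EV n → ℝ := fun w => inner ℝ x w / (gauge K x * supportFn K w) with hc
  have hccont : ContinuousOn c (sphere 0 1) := by
    apply ContinuousOn.div (by fun_prop)
    · exact continuousOn_const.mul hK.continuous_supportFn.continuousOn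
    · intro w hw
      have := hK.supportFn_pos (ne_zero_of_norm_one (mem_sphere_zero_iff_norm.1 hw))
      positivity
  have hcu_le : ∀ k, c (u k) ≤ 1 := by
    intro k
    have := hK.supportFn_pos (ne_zero_of_norm_one (hu k))
    rw [hc]
    simp only
    rw [div_le_one (by positivity)]
    exact hle k
  have hcu_pos : ∀ k, 0 < c (u k) := by
    intro k
    have := hK.supportFn_pos (ne_zero_of_norm_one (hu k))
    have := hpos k
    simp only [hc]
    positivity
  have hcu_ge : ∀ k, Real.exp (-(2 * B * ε k)) ≤ c (u k) := by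
    intro k
    rw [← Real.le_log_iff_exp_le (hcu_pos k)]
    have h1 := hlow k v hv hxv
    rw [heq k] at h1
    have h2 := (abs_le.1 (hB v hv)).1
    have h3 := (abs_le.1 (hB (u k) (hu k))).2
    have hk := hε k
    change _ ≤ Real.log (c (u k)) + _ at h1
    nlinarith
  have hcu_tendsto : Tendsto (fun k => c (u k)) atTop (𝓝 1) := by
    apply tendsto_of_tendsto_of_tendsto_of_le_of_le _ tendsto_const_nhds hcu_ge hcu_le
    have : Tendsto (fun k => Real.exp (-(2 * B * ε k))) atTop (𝓝 (Real.exp (-(2 * B * 0)))) := by
      apply (Real.continuous_exp.tendsto _).comp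
      exact (tendsto_const_nhds.mul hε0).neg
    simpa using this
  have hutend : Tendsto u atTop (𝓝 v) := by
    apply (isCompact_sphere (0 : EV n) 1).tendsto_nhds_of_unique_mapClusterPt
    · exact Filter.Eventually.of_forall fun k => mem_sphere_zero_iff_norm.2 (hu k)
    · intro w hw hclus
      have hw1 : ‖w‖ = 1 := mem_sphere_zero_iff_norm.1 hw
      apply huniq w hw1
      have hpw := hK.supportFn_pos (ne_zero_of_norm_one hw1)
      have hcw : c w = 1 := by
        obtain ⟨φ, hφ, hφt⟩ := MapClusterPt.tendsto_subseq hclus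
        have h1 : Tendsto (fun k => c (u (φ k))) atTop (𝓝 (c w)) := by
          have h2 : Tendsto (fun k => u (φ k)) atTop (𝓝[sphere 0 1] w) := by
            rw [tendsto_nhdsWithin_iff]
            exact ⟨hφt, Filter.Eventually.of_forall fun k =>
              mem_sphere_zero_iff_norm.2 (hu (φ k))⟩
          exact (hccont w hw).tendsto.comp h2
        have h3 : Tendsto (fun k => c (u (φ k))) atTop (𝓝 1) :=
          hcu_tendsto.comp hφ.tendsto_atTop
        exact tendsto_nhds_unique h1 h3
      rw [hc] at hcw
      simp only at hcw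
      rwa [div_eq_one_iff_eq (by positivity)] at hcw
  have hφtend : Tendsto (fun k => lratio K L (u k)) atTop (𝓝 (lratio K L v)) := by
    have h2 : Tendsto u atTop (𝓝[sphere 0 1] v) := by
      rw [tendsto_nhdsWithin_iff]
      exact ⟨hutend, Filter.Eventually.of_forall fun k => mem_sphere_zero_iff_norm.2 (hu k)⟩
    exact (lratio_continuousOn hK hL v (mem_sphere_zero_iff_norm.2 hv)).tendsto.comp h2
  apply tendsto_of_tendsto_of_tendsto_of_le_of_le tendsto_const_nhds hφtend
  · intro k
    simp only
    rw [le_div_iff₀ (hε k)]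
    have := hlow k v hv hxv
    linarith
  · intro k
    simp only
    rw [div_le_iff₀ (hε k), heq k]
    have h1 : Real.log (inner ℝ x (u k) / (gauge K x * supportFn K (u k))) ≤ 0 :=
      Real.log_nonpos (hcu_pos k).le (hcu_le k)
    linarith

/-- the logarithmic Brunn-Minkowski inequality in logarithmic form -/
theorem lemmaZ (hn : 0 < n) {s t : ℝ} (hs0 : 0 < s) (ht0 : 0 < t) (hst : s + t = 1)
    {W K L : Set (EV n)} (hW : SymConvexBody W) (hK : SymConvexBody K) (hL : SymConvexBody L)
    (h : ∀ u : EV n, ‖u‖ = 1 →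
      s * Real.log (supportFn K u) + t * Real.log (supportFn L u) ≤
        Real.log (supportFn W u)) :
    s * Real.log (evol K) + t * Real.log (evol L) ≤ Real.log (evol W) := by
  have pK := evol_pos hK
  have pL := evol_pos hL
  have pW := evol_pos hW
  have hs : s = 1 - t := by linarith
  have hsub : logComb t K L ⊆ W := by
    apply H880.wulff_subset_of_le hW.convex hW.isCompact ⟨0, hW.zero_mem⟩
    intro u hu
    have hu0 := ne_zero_of_norm_one hu
    have qK := hK.supportFn_pos hu0
    have qL := hL.supportFn_pos hu0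
    have qW := hW.supportFn_pos hu0
    rw [← Real.exp_log qW, Real.rpow_def_of_pos qK, Real.rpow_def_of_pos qL, ← Real.exp_add]
    apply Real.exp_le_exp.2
    have := h u hu
    rw [hs] at this
    linarith
  have h1 := Vale.Agent.P227.Int899.q1 n K L t hn hK hL ht0.le (by linarith)
  have h2 : (volume (logComb t K L)).toReal ≤ evol W :=
    ENNReal.toReal_mono hW.isCompact.measure_lt_top.ne (measure_mono hsub)
  have h3 : evol K ^ (1 - t) * evol L ^ t ≤ evol W := h1.trans h2
  have h4 := Real.log_le_log (by positivity) h3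
  rw [Real.log_mul (by positivity) (by positivity), Real.log_rpow pK, Real.log_rpow pL] at h4
  rw [hs]; exact h4

theorem evol_interior {K : Set (EV n)} (hK : SymConvexBody K) :
    volume (interior K) = volume K := by
  apply le_antisymm (measure_mono interior_subset)
  have h1 : K ⊆ interior K ∪ frontier K := by
    intro x hx
    by_cases h : x ∈ interior K
    · exact Or.inl h
    · exact Or.inr ⟨subset_closure hx, h⟩
  calc volume K ≤ volume (interior K ∪ frontier K) := measure_mono h1
    _ ≤ volume (interior K) + volume (frontier K) := measure_union_le _ _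
    _ = volume (interior K) := by
        rw [hK.convex.addHaar_frontier (volume : Measure (EV n)), add_zero]

/-- volume of one body as an integral over another one -/
theorem evol_eq_integral (hn : 0 < n) {K P : Set (EV n)} (hK : SymConvexBody K)
    (hP : SymConvexBody P) :
    volume P = ∫⁻ x in interior K, ENNReal.ofReal ((gauge K x / gauge P x) ^ n) := by
  have : Nontrivial (EV n) := by
    have : 0 < Module.finrank ℝ (EV n) := by rw [finrank_euclideanSpace_fin]; exact hn
    exact Module.nontrivial_of_finrank_pos this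
  have h := star_volume (volume : Measure (EV n)) (gauge K) (gauge P) hK.continuous_gauge
    hP.continuous_gauge
    (fun r hr x => by rw [gauge_smul_of_nonneg hr.le]; rfl)
    (fun r hr x => by rw [gauge_smul_of_nonneg hr.le]; rfl)
    (fun x hx => hK.gauge_pos hx) (fun x hx => hP.gauge_pos hx)
  rw [finrank_euclideanSpace_fin] at h
  have e1 : {x | gauge P x < 1} = interior P := setOfPred_gauge_lt_one_eq_interior hP.convex hP.nhds
  have e2 : {x | gauge K x < 1} = interior K := setOfPred_gauge_lt_one_eq_interior hK.convex hK.nhds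
  rw [e1, e2, evol_interior hP] at h
  exact h

/-- The logarithmic Minkowski inequality, with integrability. -/
theorem log_minkowski (hn : 0 < n) {K L : Set (EV n)} (hK : SymConvexBody K)
    (hL : SymConvexBody L) (ν : EV n → EV n)
    (hν : ∀ᵐ x ∂(volume.restrict K), ‖ν x‖ = 1 ∧
      inner ℝ x (ν x) = gauge K x * supportFn K (ν x)) :
    evol K / n * Real.log (evol L / evol K) ≤
      ∫ x in K, Real.log (supportFn L (ν x) / supportFn K (ν x)) := by
  have hKpos := evol_pos hK
  have hLpos := evol_pos hL
  have hn' : (0 : ℝ) < n := by exact_mod_cast hn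
  obtain ⟨B, hB0, hB⟩ := lratio_bound hK hL
  set ε : ℕ → ℝ := fun k => 1 / ((k : ℝ) + 1) with hε
  have hεpos : ∀ k, 0 < ε k := fun k => by positivity
  have hε0 : Tendsto ε atTop (𝓝 0) := tendsto_one_div_add_atTop_nhds_zero_nat
  set F : ℕ → EV n → ℝ := fun k x =>
    (Real.log (gauge (pbody K L (ε k)) x) - Real.log (gauge K x)) / ε k with hF
  set ρ : Measure (EV n) := volume.restrict (interior K) with hρ
  have : Nontrivial (EV n) := by
    have : 0 < Module.finrank ℝ (EV n) := by rw [finrank_euclideanSpace_fin]; exact hn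
    exact Module.nontrivial_of_finrank_pos this
  have hfinK : volume (interior K) ≠ ∞ := by
    rw [evol_interior hK]; exact hK.isCompact.measure_lt_top.ne
  have : IsFiniteMeasure ρ := ⟨by rw [hρ, Measure.restrict_apply_univ]; exact hfinK.lt_top⟩
  have hne0 : ∀ᵐ x ∂ρ, x ≠ 0 := by
    apply ae_restrict_of_ae
    rw [ae_iff]
    simp
  -- bound
  have hFb : ∀ k, ∀ x : EV n, x ≠ 0 → |F k x| ≤ B := by
    intro k x hx
    obtain ⟨hlow, u, hu, heq, hpos, hle⟩ := pbody_gauge hn hK hL (ε k) hx
    obtain ⟨_, w, hw, hxw⟩ := hK.exists_normal hn x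
    have h1 := hlow w hw hxw
    have h2 := (abs_le.1 (hB w hw)).1
    have h3 := (abs_le.1 (hB u hu)).2
    have hku := hK.supportFn_pos (ne_zero_of_norm_one hu)
    have hg := hK.gauge_pos hx
    have h4 : Real.log (inner ℝ x u / (gauge K x * supportFn K u)) ≤ 0 := by
      apply Real.log_nonpos (by positivity)
      rw [div_le_one (by positivity)]
      exact hle
    have hk := hεpos k
    rw [abs_le]
    constructor
    · rw [hF]
      simp only
      rw [le_div_iff₀ hk]
      nlinarith
    · rw [hF]
      simp only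
      rw [div_le_iff₀ hk, heq]
      nlinarith
  have hFm : ∀ k, Measurable (F k) := by
    intro k
    have hP := pbody_scb hK hL (ε k)
    exact ((Real.measurable_log.comp hP.continuous_gauge.measurable).sub
      (Real.measurable_log.comp hK.continuous_gauge.measurable)).div_const _
  -- the volume inequality for each k
  have hvol : ∀ k, evol K * ((1 - Real.exp (-(ε k * Real.log (evol L / evol K)))) / ε k) ≤
      n * ∫ x, F k x ∂ρ := by
    intro k
    have hP := pbody_scb hK hL (ε k)
    have hPpos := evol_pos hP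
    have hk := hεpos k
    -- upper bound on evol P
    have hs : 0 < 1 / (1 + ε k) := by positivity
    have ht : 0 < ε k / (1 + ε k) := by positivity
    have hst : 1 / (1 + ε k) + ε k / (1 + ε k) = 1 := by field_simp
    have hZ := lemmaZ hn hs ht hst hK hP hL (by
      intro u hu
      have hu0 := ne_zero_of_norm_one hu
      have pK := hK.supportFn_pos hu0
      have pP := hP.supportFn_pos hu0
      have h1 : supportFn (pbody K L (ε k)) u ≤ pert K L (ε k) u :=
        supportFn_le ⟨0, hP.zero_mem⟩ fun x hx => hx u hu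
      have h2 := Real.log_le_log pP h1
      rw [pert, Real.log_mul pK.ne' (Real.exp_pos _).ne', Real.log_exp] at h2
      have h3 : 1 / (1 + ε k) * Real.log (supportFn (pbody K L (ε k)) u) ≤
          1 / (1 + ε k) * (Real.log (supportFn K u) + -(ε k * lratio K L u)) :=
        mul_le_mul_of_nonneg_left h2 hs.le
      refine (add_le_add_left h3 _).trans (le_of_eq ?_)
      rw [lratio]
      field_simp
      ring)
    have hup : Real.log (evol (pbody K L (ε k))) ≤
        Real.log (evol K) - ε k * Real.log (evol L / evol K) := by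
      rw [Real.log_div hLpos.ne' hKpos.ne']
      have h5 : Real.log (evol (pbody K L (ε k))) + ε k * Real.log (evol L) ≤
          (1 + ε k) * Real.log (evol K) := by
        calc Real.log (evol (pbody K L (ε k))) + ε k * Real.log (evol L)
            = (1 + ε k) * (1 / (1 + ε k) * Real.log (evol (pbody K L (ε k))) +
              ε k / (1 + ε k) * Real.log (evol L)) := by field_simp
          _ ≤ (1 + ε k) * Real.log (evol K) := by
              apply mul_le_mul_of_nonneg_left hZ (by positivity)
      nlinarith
    have hup2 : evol (pbody K L (ε k)) ≤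
        evol K * Real.exp (-(ε k * Real.log (evol L / evol K))) := by
      rw [← Real.exp_log hPpos, ← Real.exp_log hKpos, ← Real.exp_add, Real.exp_log hKpos]
      apply Real.exp_le_exp.2
      linarith
    -- lower bound on evol P
    have hlowP : evol K - n * ε k * ∫ x, F k x ∂ρ ≤ evol (pbody K L (ε k)) := by
      have hInt : Integrable (F k) ρ := by
        apply Integrable.of_bound (hFm k).aestronglyMeasurable B
        filter_upwards [hne0] with x hx
        rw [Real.norm_eq_abs]
        exact hFb k x hx
      have h1 : evol (pbody K L (ε k)) =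
          ∫ x, (gauge K x / gauge (pbody K L (ε k)) x) ^ n ∂ρ := by
        rw [evol, evol_eq_integral hn hK hP, integral_eq_lintegral_of_nonneg_ae]
        · apply Filter.Eventually.of_forall
          intro x
          exact pow_nonneg (div_nonneg (gauge_nonneg _) (gauge_nonneg _)) _
        · exact ((hK.continuous_gauge.measurable.div
            hP.continuous_gauge.measurable).pow_const _).aestronglyMeasurable
      have hpt : ∀ x : EV n, x ≠ 0 → (gauge K x / gauge (pbody K L (ε k)) x) ^ n =
          Real.exp (-(n * ε k * F k x)) := by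
        intro x hx
        have p1 := hK.gauge_pos hx
        have p2 := hP.gauge_pos hx
        rw [← Real.exp_log (div_pos p1 p2), ← Real.exp_nat_mul, Real.log_div p1.ne' p2.ne']
        congr 1
        simp only [hF]
        field_simp
        ring
      have hInt2 : Integrable (fun x => (gauge K x / gauge (pbody K L (ε k)) x) ^ n) ρ := by
        apply Integrable.of_bound (C := Real.exp (n * ε k * B))
        · exact ((hK.continuous_gauge.measurable.div
            hP.continuous_gauge.measurable).pow_const _).aestronglyMeasurable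
        · filter_upwards [hne0] with x hx
          rw [hpt x hx, Real.norm_eq_abs, Real.abs_exp]
          apply Real.exp_le_exp.2
          have := (abs_le.1 (hFb k x hx)).1
          have h7 : 0 ≤ n * ε k := by positivity
          nlinarith
      have h2 : ∫ x, (1 - n * ε k * F k x) ∂ρ ≤
          ∫ x, (gauge K x / gauge (pbody K L (ε k)) x) ^ n ∂ρ := by
        apply integral_mono_ae ((integrable_const _).sub (hInt.const_mul _)) hInt2
        filter_upwards [hne0] with x hx
        rw [hpt x hx]
        have := Real.add_one_le_exp (-(n * ε k * F k x))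
        simp only [Pi.sub_apply]
        linarith
      rw [integral_sub (integrable_const _) (hInt.const_mul _), integral_const_mul] at h2
      rw [h1]
      refine le_trans (le_of_eq ?_) h2
      congr 1
      rw [integral_const, hρ]
      simp only [smul_eq_mul, mul_one]
      rw [measureReal_restrict_apply_univ, Measure.real, evol_interior hK]
      rfl
    have h8 : evol K * (1 - Real.exp (-(ε k * Real.log (evol L / evol K)))) ≤
        n * ε k * ∫ x, F k x ∂ρ := by
      have := hlowP.trans hup2
      linarith
    rw [← mul_div_assoc, div_le_iff₀ hk]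
    linarith
  -- limits
  have hlimL : Tendsto (fun k => evol K * ((1 - Real.exp (-(ε k * Real.log (evol L / evol K)))) /
      ε k)) atTop (𝓝 (evol K * Real.log (evol L / evol K))) := by
    apply Tendsto.const_mul
    set Δ := Real.log (evol L / evol K)
    have hder : HasDerivAt (fun z : ℝ => -Real.exp (-(z * Δ))) Δ 0 := by
      have h1 : HasDerivAt (fun z : ℝ => -(z * Δ)) (-(1 * Δ)) 0 := ((hasDerivAt_id 0).mul_const Δ).neg
      have h2 : HasDerivAt (fun z : ℝ => -Real.exp (-(z * Δ)))
          (-(Real.exp (-(0 * Δ)) * -(1 * Δ))) 0 := h1.exp.neg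
      simpa using h2
    have hsl := hder.tendsto_slope_zero_right
    have hcomp : Tendsto ε atTop (𝓝[>] 0) := by
      rw [tendsto_nhdsWithin_iff]
      exact ⟨hε0, Filter.Eventually.of_forall hεpos⟩
    have h3 := hsl.comp hcomp
    refine h3.congr fun k => ?_
    simp only [Function.comp_apply, zero_add, zero_mul, neg_zero, Real.exp_zero, smul_eq_mul]
    field_simp
    ring
  have haeν : ∀ᵐ x ∂ρ, ‖ν x‖ = 1 ∧ inner ℝ x (ν x) = gauge K x * supportFn K (ν x) :=
    ae_restrict_of_ae_restrict_of_subset interior_subset hν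
  have hlimR : Tendsto (fun k => ∫ x, F k x ∂ρ) atTop (𝓝 (∫ x, lratio K L (ν x) ∂ρ)) := by
    apply tendsto_integral_of_dominated_convergence (fun _ => B)
    · exact fun k => (hFm k).aestronglyMeasurable
    · exact integrable_const _
    · intro k
      filter_upwards [hne0] with x hx
      rw [Real.norm_eq_abs]
      exact hFb k x hx
    · filter_upwards [hne0, haeν, ae_restrict_of_ae hK.ae_differentiable] with x hx hνx hd
      exact pbody_tendsto hn hK hL hx hνx.1 hνx.2
        (fun w hw hxw => hK.normal_unique hn hd hw hνx.1 hxw hνx.2) ε hεpos hε0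
  have hfinal := le_of_tendsto_of_tendsto' hlimL (hlimR.const_mul (n : ℝ)) hvol
  have hint : ∫ x in K, Real.log (supportFn L (ν x) / supportFn K (ν x)) =
      ∫ x, lratio K L (ν x) ∂ρ := by
    have hae : (interior K : Set (EV n)) =ᵐ[volume] K := by
      apply ae_eq_of_subset_of_measure_ge interior_subset (evol_interior hK).ge
      · exact isOpen_interior.measurableSet.nullMeasurableSet
      · exact hK.isCompact.measure_lt_top.ne
    rw [← setIntegral_congr_set hae]
    apply integral_congr_ae
    filter_upwards [haeν] with x hx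
    have hx0 := ne_zero_of_norm_one hx.1
    rw [Real.log_div (hL.supportFn_pos hx0).ne' (hK.supportFn_pos hx0).ne']
    rfl
  rw [hint, div_mul_eq_mul_div, div_le_iff₀ hn']
  linarith

end H368

end Vale.Agent.P227
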