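import Vale.Agent.P227.H368.Defs
import Vale.Agent.P227.H368.LM

/-! # P227: the `L_p` Minkowski inequality for all `p > 0` with equality cases, and uniqueness in
the even `L_p` Minkowski problem -/

open MeasureTheory Set Metric Filter Topology
open scoped ENNReal NNReal Pointwise

namespace Vale.Agent.P227

namespace H368

variable {n : ℕ}

theorem measurable_outerNormal (K : Set (EV n)) : Measurable (outerNormal K) := by
  have h1 : Measurable (gradient (gauge K)) := by
    have : gradient (gauge K) = fun x =>
        (InnerProductSpace.toDual ℝ (EV n)).symm (fderiv ℝ (gauge K) x) := rfl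
    rw [this]
    exact (InnerProductSpace.toDual ℝ (EV n)).symm.continuous.measurable.comp
      (measurable_fderiv ℝ (gauge K))
  exact (h1.norm.inv).smul h1

theorem outerNormal_eq (hn : 0 < n) {K : Set (EV n)} (hK : SymConvexBody K) {x : EV n}
    (hd : DifferentiableAt ℝ (gauge K) x) :
    ‖outerNormal K x‖ = 1 ∧
      inner ℝ x (outerNormal K x) = gauge K x * supportFn K (outerNormal K x) := by
  obtain ⟨_, w, hw, hxw⟩ := hK.exists_normal hn x
  have hpos := hK.supportFn_pos (ne_zero_of_norm_one hw)
  have hg : gradient (gauge K) x = (supportFn K w)⁻¹ • w := by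
    apply ext_inner_right ℝ
    intro y
    rw [real_inner_smul_left]
    have h1 : inner ℝ (gradient (gauge K) x) y = fderiv ℝ (gauge K) x y := by
      exact InnerProductSpace.toDual_symm_apply
    rw [h1, hK.fderiv_gauge hn hd hw hxw y, real_inner_comm]
  have ho : outerNormal K x = w := by
    rw [outerNormal, hg, norm_smul, norm_inv, Real.norm_of_nonneg hpos.le, hw, mul_one, inv_inv,
      smul_smul, mul_inv_cancel₀ hpos.ne', one_smul]
  rw [ho]
  exact ⟨hw, hxw⟩

theorem ae_outerNormal (hn : 0 < n) {K : Set (EV n)} (hK : SymConvexBody K) :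
    ∀ᵐ x ∂(volume.restrict K), ‖outerNormal K x‖ = 1 ∧
      inner ℝ x (outerNormal K x) = gauge K x * supportFn K (outerNormal K x) := by
  filter_upwards [ae_restrict_of_ae hK.ae_differentiable] with x hx
  exact outerNormal_eq hn hK hx

theorem ae_coneVol (hn : 0 < n) {K : Set (EV n)} (hK : SymConvexBody K) :
    ∀ᵐ u ∂(coneVol K), ‖u‖ = 1 := by
  rw [coneVol, ae_map_iff (measurable_outerNormal K).aemeasurable
    (measurableSet_eq_fun measurable_norm measurable_const)]
  filter_upwards [ae_outerNormal hn hK] with x hx
  exact hx.1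

theorem coneVol_univ {K : Set (EV n)} : coneVol K univ = volume K := by
  rw [coneVol, Measure.map_apply (measurable_outerNormal K) MeasurableSet.univ, preimage_univ,
    Measure.restrict_apply_univ]

/-- the logarithm of the ratio of the support functions is bounded on the sphere -/
theorem ratio_bound {K L : Set (EV n)} (hK : SymConvexBody K) (hL : SymConvexBody L) :
    ∃ B : ℝ, ∀ u : EV n, ‖u‖ = 1 → |Real.log (supportFn L u / supportFn K u)| ≤ B := by
  obtain ⟨B, _, hB⟩ := lratio_bound hK hL
  refine ⟨B, fun u hu => ?_⟩
  have hu0 := ne_zero_of_norm_one hu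
  rw [Real.log_div (hL.supportFn_pos hu0).ne' (hK.supportFn_pos hu0).ne']
  exact hB u hu

theorem measurable_ratio {K L : Set (EV n)} (hK : SymConvexBody K) (hL : SymConvexBody L) :
    Measurable (fun u => Real.log (supportFn L u / supportFn K u)) :=
  Real.measurable_log.comp
    (hL.continuous_supportFn.measurable.div hK.continuous_supportFn.measurable)

theorem finite_coneVol {K : Set (EV n)} (hK : SymConvexBody K) : IsFiniteMeasure (coneVol K) :=
  ⟨by rw [coneVol_univ]; exact hK.isCompact.measure_lt_top⟩

theorem integrable_ratio (hn : 0 < n) {K L : Set (EV n)} (hK : SymConvexBody K)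
    (hL : SymConvexBody L) :
    Integrable (fun u => Real.log (supportFn L u / supportFn K u)) (coneVol K) := by
  have := finite_coneVol hK
  obtain ⟨B, hB⟩ := ratio_bound hK hL
  refine Integrable.of_bound (measurable_ratio hK hL).aestronglyMeasurable B ?_
  filter_upwards [ae_coneVol hn hK] with u hu
  exact hB u hu

/-- logarithmic Minkowski inequality with the cone-volume measure -/
theorem log_minkowski_cone (hn : 0 < n) {K L : Set (EV n)} (hK : SymConvexBody K)
    (hL : SymConvexBody L) :
    evol K * Real.log (evol L / evol K) ≤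
      n * ∫ u, Real.log (supportFn L u / supportFn K u) ∂(coneVol K) := by
  have h := log_minkowski hn hK hL (outerNormal K) (ae_outerNormal hn hK)
  have hn' : (0 : ℝ) < n := by exact_mod_cast hn
  rw [coneVol, integral_map (measurable_outerNormal K).aemeasurable
    (measurable_ratio hK hL).aestronglyMeasurable]
  rw [div_mul_eq_mul_div, div_le_iff₀ hn'] at h
  linarith

theorem exp_ratio {K L : Set (EV n)} (hK : SymConvexBody K) (hL : SymConvexBody L) (p : ℝ)
    {u : EV n} (hu : ‖u‖ = 1) :
    Real.exp (p * Real.log (supportFn L u / supportFn K u)) =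
      (supportFn L u / supportFn K u) ^ p := by
  have hu0 := ne_zero_of_norm_one hu
  rw [Real.rpow_def_of_pos (div_pos (hL.supportFn_pos hu0) (hK.supportFn_pos hu0)), mul_comm]

/-- if `h_L = c h_K` almost everywhere for the cone-volume measure of `K` then `L ⊆ cK` -/
theorem gauge_le_of_ae (hn : 0 < n) {K L : Set (EV n)} (hK : SymConvexBody K)
    (hL : SymConvexBody L) {c : ℝ} (h : ∀ᵐ u ∂(coneVol K), supportFn L u ≤ c * supportFn K u)
    {y : EV n} (hy : y ∈ L) : gauge K y ≤ c := by
  have hm : MeasurableSet {u : EV n | supportFn L u ≤ c * supportFn K u} :=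
    measurableSet_le hL.continuous_supportFn.measurable
      (hK.continuous_supportFn.measurable.const_mul c)
  rw [coneVol, ae_map_iff (measurable_outerNormal K).aemeasurable hm] at h
  obtain ⟨θ, hθ, hθK⟩ : ∃ θ : ℝ, 0 < θ ∧ θ • y ∈ interior K := by
    have hc : Tendsto (fun θ : ℝ => θ • y) (𝓝[>] 0) (𝓝 0) := by
      have : Continuous fun θ : ℝ => θ • y := by fun_prop
      have h2 := this.tendsto 0
      rw [zero_smul] at h2
      exact h2.mono_left nhdsWithin_le_nhds
    have h3 := hc.eventually (isOpen_interior.mem_nhds hK.zero_mem_int)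
    obtain ⟨θ, h4, h5⟩ := (h3.and self_mem_nhdsWithin).exists
    exact ⟨θ, h5, h4⟩
  -- good points near θ y
  have hae : ∀ᵐ x ∂(volume.restrict (interior K)),
      (‖outerNormal K x‖ = 1 ∧
        inner ℝ x (outerNormal K x) = gauge K x * supportFn K (outerNormal K x)) ∧
      supportFn L (outerNormal K x) ≤ c * supportFn K (outerNormal K x) :=
    ae_restrict_of_ae_restrict_of_subset interior_subset ((ae_outerNormal hn hK).and h)
  have hgood : ∀ x : EV n, (‖outerNormal K x‖ = 1 ∧
        inner ℝ x (outerNormal K x) = gauge K x * supportFn K (outerNormal K x)) ∧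
      supportFn L (outerNormal K x) ≤ c * supportFn K (outerNormal K x) →
      gauge K x ≤ θ * c + gauge K (x - θ • y) := by
    rintro x ⟨⟨h1, h2⟩, h3⟩
    set w := outerNormal K x
    have hw := hK.supportFn_pos (ne_zero_of_norm_one h1)
    have h4 : inner ℝ y w ≤ c * supportFn K w := (inner_le_supportFn hL.isCompact hy w).trans h3
    have h5 := (hK.exists_normal hn (x - θ • y)).1 w h1
    have h6 : gauge K x * supportFn K w ≤ (θ * c + gauge K (x - θ • y)) * supportFn K w := by
      rw [← h2]
      have e : inner ℝ x w = θ * inner ℝ y w + inner ℝ (x - θ • y) w := by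
        rw [inner_sub_left, real_inner_smul_left]; ring
      rw [e, add_mul]
      apply add_le_add _ h5
      calc θ * inner ℝ y w ≤ θ * (c * supportFn K w) := mul_le_mul_of_nonneg_left h4 hθ.le
        _ = θ * c * supportFn K w := by ring
    exact le_of_mul_le_mul_right h6 hw
  have hdense : ∃ᶠ x in 𝓝 (θ • y), gauge K x ≤ θ * c + gauge K (x - θ • y) := by
    intro hcon
    obtain ⟨U, hU1, hU2, hU3⟩ := _root_.mem_nhds_iff.1
      (inter_mem hcon (isOpen_interior.mem_nhds hθK))
    have hpos : 0 < volume U := hU2.measure_pos volume ⟨_, hU3⟩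
    apply hpos.ne'
    have h7 : ∀ᵐ x ∂(volume.restrict U), False := by
      have h8 := ae_restrict_of_ae_restrict_of_subset (fun x hx => (hU1 hx).2 : U ⊆ interior K) hae
      filter_upwards [h8, ae_restrict_mem hU2.measurableSet] with x hx hxU
      exact (hU1 hxU).1 (hgood x hx)
    rw [ae_iff] at h7
    simpa using h7
  have hclosed : IsClosed {x : EV n | gauge K x ≤ θ * c + gauge K (x - θ • y)} := by
    have hg := hK.continuous_gauge
    exact isClosed_le hg (continuous_const.add (hg.comp (by fun_prop)))
  have hmem : θ • y ∈ {x : EV n | gauge K x ≤ θ * c + gauge K (x - θ • y)} := by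
    rw [← hclosed.closure_eq]
    exact mem_closure_iff_frequently.2 hdense
  have h9 : gauge K (θ • y) ≤ θ * c + gauge K (θ • y - θ • y) := hmem
  rw [sub_self, gauge_zero, add_zero, gauge_smul_of_nonneg hθ.le, smul_eq_mul] at h9
  exact le_of_mul_le_mul_left h9 hθ

theorem evol_smul (K : Set (EV n)) {c : ℝ} (hc : 0 ≤ c) : evol (c • K) = c ^ n * evol K := by
  rw [evol, Measure.addHaar_smul, finrank_euclideanSpace_fin, ENNReal.toReal_mul,
    ENNReal.toReal_ofReal (abs_nonneg _), abs_of_nonneg (by positivity)]
  rfl

theorem supportFn_dilate {K : Set (EV n)} (hK : SymConvexBody K) {c : ℝ} (hc : 0 < c) (u : EV n) :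
    supportFn (c • K) u = c * supportFn K u :=
  H880.supportFn_smul hK.isCompact ⟨0, hK.zero_mem⟩ hc u

/-- a body contained in a body of the same volume is equal to it -/
theorem eq_of_subset_of_evol {A B : Set (EV n)} (hA : SymConvexBody A) (hB : SymConvexBody B)
    (h : A ⊆ B) (hv : evol B ≤ evol A) : A = B := by
  refine h.antisymm ?_
  by_contra hne
  rw [not_subset] at hne
  obtain ⟨y, hyB, hyA⟩ := hne
  have hopen : IsOpen (Aᶜ) := hA.isCompact.isClosed.isOpen_compl
  have hcl : y ∈ closure (interior B) := by
    rw [hB.convex.closure_interior_eq_closure_of_nonempty_interior hB.nonempty_interior]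
    exact subset_closure hyB
  obtain ⟨z, hz1, hz2⟩ := mem_closure_iff.1 hcl _ hopen hyA
  have hU : IsOpen (Aᶜ ∩ interior B) := hopen.inter isOpen_interior
  have hpos : 0 < volume (Aᶜ ∩ interior B) := hU.measure_pos volume ⟨z, hz1, hz2⟩
  have h1 : volume A + volume (Aᶜ ∩ interior B) ≤ volume B := by
    rw [← measure_union _ hU.measurableSet]
    · exact measure_mono (union_subset h fun x hx => interior_subset hx.2)
    · rw [Set.disjoint_left]
      intro x hx hx2
      exact hx2.1 hx
  have fA : volume A ≠ ⊤ := hA.isCompact.measure_lt_top.ne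
  have fB : volume B ≠ ⊤ := hB.isCompact.measure_lt_top.ne
  have h2 : volume B ≤ volume A := (ENNReal.toReal_le_toReal fB fA).1 hv
  have h3 : volume A + volume (Aᶜ ∩ interior B) ≤ volume A + 0 := by
    rw [add_zero]; exact h1.trans h2
  have h4 := (ENNReal.add_le_add_iff_left fA).1 h3
  exact hpos.ne' (le_antisymm h4 bot_le)

/-- **the `L_p` Minkowski inequality for every `p > 0`, with its equality cases** -/
theorem lp_minkowski (hn : 0 < n) {K L : Set (EV n)} (hK : SymConvexBody K)
    (hL : SymConvexBody L) {p : ℝ} (hp : 0 < p) :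
    evol K * (evol L / evol K) ^ (p / n) ≤
        ∫ u, (supportFn L u / supportFn K u) ^ p ∂(coneVol K) ∧
      (evol K * (evol L / evol K) ^ (p / n) =
        ∫ u, (supportFn L u / supportFn K u) ^ p ∂(coneVol K) ↔ ∃ c : ℝ, 0 < c ∧ L = c • K) := by
  have hn' : (0 : ℝ) < n := by exact_mod_cast hn
  have pK := evol_pos hK
  have pL := evol_pos hL
  have hfin := finite_coneVol hK
  have hreal : (coneVol K).real univ = evol K := by
    rw [Measure.real, coneVol_univ]; rfl
  have hNZ : NeZero (coneVol K) := ⟨by
    intro h0
    have : (coneVol K).real univ = 0 := by rw [h0]; simp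
    rw [hreal] at this
    exact pK.ne' this⟩
  set φ : EV n → ℝ := fun u => Real.log (supportFn L u / supportFn K u) with hφ
  have hI : Integrable φ (coneVol K) := integrable_ratio hn hK hL
  have hIp : Integrable (fun u => p * φ u) (coneVol K) := hI.const_mul p
  obtain ⟨B, hB⟩ := ratio_bound hK hL
  have hIe : Integrable (Real.exp ∘ fun u => p * φ u) (coneVol K) := by
    refine Integrable.of_bound (C := Real.exp (p * B)) ?_ ?_
    · exact (Real.measurable_exp.comp ((measurable_ratio hK hL).const_mul p)).aestronglyMeasurable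
    · filter_upwards [ae_coneVol hn hK] with u hu
      rw [Function.comp_apply, Real.norm_eq_abs, Real.abs_exp]
      apply Real.exp_le_exp.2
      exact mul_le_mul_of_nonneg_left (abs_le.1 (hB u hu)).2 hp.le
  have hint : ∫ u, (supportFn L u / supportFn K u) ^ p ∂(coneVol K) =
      ∫ u, Real.exp (p * φ u) ∂(coneVol K) := by
    apply integral_congr_ae
    filter_upwards [ae_coneVol hn hK] with u hu
    exact (exp_ratio hK hL p hu).symm
  have hav : ∀ g : EV n → ℝ, ⨍ u, g u ∂(coneVol K) = (evol K)⁻¹ * ∫ u, g u ∂(coneVol K) := by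
    intro g
    rw [average_eq, hreal, smul_eq_mul]
  have hlog := log_minkowski_cone hn hK hL
  have hlog2 : p / n * Real.log (evol L / evol K) ≤ ⨍ u, p * φ u ∂(coneVol K) := by
    rw [hav, integral_const_mul]
    have e : p / n * Real.log (evol L / evol K) =
        (p / n * (evol K)⁻¹) * (evol K * Real.log (evol L / evol K)) := by
      field_simp
    rw [e]
    calc (p / n * (evol K)⁻¹) * (evol K * Real.log (evol L / evol K)) ≤
          (p / n * (evol K)⁻¹) * (n * ∫ u, φ u ∂(coneVol K)) :=
          mul_le_mul_of_nonneg_left hlog (by positivity)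
      _ = _ := by field_simp
  have hpow : (evol L / evol K) ^ (p / n) = Real.exp (p / n * Real.log (evol L / evol K)) := by
    rw [Real.rpow_def_of_pos (by positivity), mul_comm]
  have hjen := strictConvexOn_exp.convexOn.map_average_le Real.continuous_exp.continuousOn
    isClosed_univ (Eventually.of_forall fun _ => mem_univ _) hIp hIe
  have hle1 : (evol L / evol K) ^ (p / n) ≤ Real.exp (⨍ u, p * φ u ∂(coneVol K)) := by
    rw [hpow]; exact Real.exp_le_exp.2 hlog2
  have hmain : (evol L / evol K) ^ (p / n) ≤ ⨍ u, Real.exp (p * φ u) ∂(coneVol K) :=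
    hle1.trans hjen
  have hscale : ∀ x : ℝ, x ≤ ⨍ u, Real.exp (p * φ u) ∂(coneVol K) ↔
      evol K * x ≤ ∫ u, Real.exp (p * φ u) ∂(coneVol K) := by
    intro x
    rw [hav, ← div_eq_inv_mul, le_div_iff₀ pK, mul_comm]
  refine ⟨?_, ?_, ?_⟩
  · rw [hint]; exact (hscale _).1 hmain
  · intro heq
    rw [hint] at heq
    have heq2 : (evol L / evol K) ^ (p / n) = ⨍ u, Real.exp (p * φ u) ∂(coneVol K) := by
      rw [hav, ← heq]; field_simp
    rcases strictConvexOn_exp.ae_eq_const_or_map_average_lt Real.continuous_exp.continuousOn
      isClosed_univ (Eventually.of_forall fun _ => mem_univ _) hIp hIe with hc | hlt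
    · -- constant ratio
      set d := ⨍ u, p * φ u ∂(coneVol K) with hd
      set c := Real.exp (d / p) with hcdef
      have hcpos : 0 < c := Real.exp_pos _
      have hae : ∀ᵐ u ∂(coneVol K), supportFn L u = c * supportFn K u := by
        filter_upwards [hc, ae_coneVol hn hK] with u hu hu1
        have hu0 := ne_zero_of_norm_one hu1
        have qK := hK.supportFn_pos hu0
        have qL := hL.supportFn_pos hu0
        have h1 : p * φ u = d := hu
        have h2 : φ u = d / p := by field_simp; linarith
        have h3 : supportFn L u / supportFn K u = c := by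
          rw [hcdef, ← h2, hφ]
          exact (Real.exp_log (by positivity)).symm
        rw [← h3]; field_simp
      have hsub : L ⊆ c • K := by
        intro y hy
        have h1 := gauge_le_of_ae hn hK hL (hae.mono fun u hu => hu.le) hy
        have h2 : gauge K (c⁻¹ • y) ≤ 1 := by
          rw [gauge_smul_of_nonneg (by positivity), smul_eq_mul, inv_mul_le_iff₀ hcpos, mul_one]
          exact h1
        have h3 : c⁻¹ • y ∈ K := by
          have h4 := (gauge_le_one_iff_mem_closure hK.convex hK.nhds).1 h2
          rwa [hK.isCompact.isClosed.closure_eq] at h4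
        exact (mem_smul_set_iff_inv_smul_mem₀ hcpos.ne' _ _).2 h3
      refine ⟨c, hcpos, eq_of_subset_of_evol hL (H880.body_smul hK hcpos) hsub ?_⟩
      rw [evol_smul K hcpos.le]
      have h5 : ⨍ u, Real.exp (p * φ u) ∂(coneVol K) = Real.exp d := by
        rw [hav]
        have : ∫ u, Real.exp (p * φ u) ∂(coneVol K) = ∫ _u, Real.exp d ∂(coneVol K) := by
          apply integral_congr_ae
          filter_upwards [hc] with u hu
          have h1 : p * φ u = d := hu
          rw [h1]
        rw [this, integral_const, hreal, smul_eq_mul]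
        field_simp
      rw [h5, hpow] at heq2
      have h6 : p / n * Real.log (evol L / evol K) = d := Real.exp_injective heq2
      have h7 : Real.log (evol L / evol K) = n * (d / p) := by
        field_simp at h6 ⊢
        linarith
      have h8 : evol L / evol K = c ^ n := by
        rw [← Real.exp_log (show 0 < evol L / evol K by positivity), h7, hcdef,
          ← Real.exp_nat_mul]
      have h9 : evol L = c ^ n * evol K := by
        rw [← h8]; field_simp
      exact h9.ge
    · exfalso
      have h1 := hle1.trans_lt hlt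
      rw [heq2] at h1
      exact lt_irrefl _ h1
  · rintro ⟨c, hc, rfl⟩
    have h1 : ∫ u, (supportFn (c • K) u / supportFn K u) ^ p ∂(coneVol K) =
        ∫ _u, c ^ p ∂(coneVol K) := by
      apply integral_congr_ae
      filter_upwards [ae_coneVol hn hK] with u hu
      have qK := hK.supportFn_pos (ne_zero_of_norm_one hu)
      rw [supportFn_dilate hK hc, mul_div_cancel_right₀ _ qK.ne']
    rw [h1, integral_const, hreal, smul_eq_mul, evol_smul K hc.le,
      mul_div_cancel_right₀ _ pK.ne', ← Real.rpow_natCast, ← Real.rpow_mul hc.le]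
    congr 2
    field_simp

/-- integrals against the `L_p` surface area measure -/
theorem lintegral_lpSurface (hn : 0 < n) {K L : Set (EV n)} (hK : SymConvexBody K)
    (hL : SymConvexBody L) {p : ℝ} (hp : 0 < p) :
    ∫⁻ u, ENNReal.ofReal (supportFn L u ^ p) ∂(lpSurface p K) =
      ENNReal.ofReal (n * ∫ u, (supportFn L u / supportFn K u) ^ p ∂(coneVol K)) := by
  have hfin := finite_coneVol hK
  have mK : Measurable (supportFn K) := hK.continuous_supportFn.measurable
  have mL : Measurable (supportFn L) := hL.continuous_supportFn.measurable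
  obtain ⟨B, hB⟩ := ratio_bound hK hL
  have hIe : Integrable (fun u => (supportFn L u / supportFn K u) ^ p) (coneVol K) := by
    refine Integrable.of_bound (C := Real.exp (p * B)) ?_ ?_
    · exact ((mL.div mK).pow_const p).aestronglyMeasurable
    · filter_upwards [ae_coneVol hn hK] with u hu
      rw [← exp_ratio hK hL p hu, Real.norm_eq_abs, Real.abs_exp]
      apply Real.exp_le_exp.2
      exact mul_le_mul_of_nonneg_left (abs_le.1 (hB u hu)).2 hp.le
  have mW : Measurable fun u : EV n => ENNReal.ofReal (n * supportFn K u ^ (-p)) :=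
    ((mK.pow_const (-p)).const_mul _).ennreal_ofReal
  rw [lpSurface, lintegral_withDensity_eq_lintegral_mul _ mW (mL.pow_const p).ennreal_ofReal,
    ← integral_const_mul, ofReal_integral_eq_lintegral_ofReal (hIe.const_mul _)]
  · apply lintegral_congr_ae
    filter_upwards [ae_coneVol hn hK] with u hu
    have hu0 := ne_zero_of_norm_one hu
    have qK := hK.supportFn_pos hu0
    have qL := hL.supportFn_pos hu0
    rw [Pi.mul_apply, ← ENNReal.ofReal_mul (by positivity), Real.div_rpow qL.le qK.le,
      Real.rpow_neg qK.le]
    congr 1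
    field_simp
  · filter_upwards [ae_coneVol hn hK] with u hu
    have hu0 := ne_zero_of_norm_one hu
    have qK := hK.supportFn_pos hu0
    have qL := hL.supportFn_pos hu0
    simp only [Pi.zero_apply]
    positivity

/-- **uniqueness in the even `L_p` Minkowski problem, `0 < p < n`** -/
theorem lp_unique (hn : 0 < n) {K L : Set (EV n)} (hK : SymConvexBody K)
    (hL : SymConvexBody L) {p : ℝ} (hp : 0 < p) (hpn : p < n)
    (h : lpSurface p K = lpSurface p L) : K = L := by
  have hn' : (0 : ℝ) < n := by exact_mod_cast hn
  have self : ∀ {M : Set (EV n)}, SymConvexBody M →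
      ∫ u, (supportFn M u / supportFn M u) ^ p ∂(coneVol M) = evol M := by
    intro M hM
    have : ∫ u, (supportFn M u / supportFn M u) ^ p ∂(coneVol M) = ∫ _u, (1 : ℝ) ∂(coneVol M) := by
      apply integral_congr_ae
      filter_upwards [ae_coneVol hn hM] with u hu
      have q := hM.supportFn_pos (ne_zero_of_norm_one hu)
      rw [div_self q.ne', Real.one_rpow]
    rw [this, integral_const, smul_eq_mul, mul_one, Measure.real, coneVol_univ]
    rfl
  have nonneg : ∀ {M N : Set (EV n)}, SymConvexBody M → SymConvexBody N →
      0 ≤ ∫ u, (supportFn N u / supportFn M u) ^ p ∂(coneVol M) := by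
    intro M N hM hN
    apply integral_nonneg_of_ae
    filter_upwards [ae_coneVol hn hM] with u hu
    have hu0 := ne_zero_of_norm_one hu
    have qK := hM.supportFn_pos hu0
    have qL := hN.supportFn_pos hu0
    simp only [Pi.zero_apply]
    positivity
  have key : ∀ {M N : Set (EV n)}, SymConvexBody M → SymConvexBody N →
      lpSurface p M = lpSurface p N →
      ∫ u, (supportFn N u / supportFn M u) ^ p ∂(coneVol M) = evol N := by
    intro M N hM hN hMN
    have h1 := lintegral_lpSurface hn hM hN hp
    have h2 := lintegral_lpSurface hn hN hN hp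
    rw [hMN, h2, self hN] at h1
    have h3 := (ENNReal.ofReal_eq_ofReal_iff (mul_nonneg hn'.le (evol_pos hN).le)
      (mul_nonneg hn'.le (nonneg hM hN))).1 h1
    exact (mul_left_cancel₀ hn'.ne' h3).symm
  have pK := evol_pos hK
  have pL := evol_pos hL
  have ineq : ∀ {M N : Set (EV n)}, SymConvexBody M → SymConvexBody N →
      lpSurface p M = lpSurface p N → evol M ≤ evol N := by
    intro M N hM hN hMN
    have pM := evol_pos hM
    have pN := evol_pos hN
    have h1 := (lp_minkowski hn hM hN hp).1
    rw [key hM hN hMN] at h1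
    by_contra hlt
    push Not at hlt
    have h2 : evol N / evol M < 1 := (div_lt_one pM).2 hlt
    have h3 : (evol N / evol M) ^ (1 : ℝ) < (evol N / evol M) ^ (p / n) :=
      Real.rpow_lt_rpow_of_exponent_gt (by positivity) h2 ((div_lt_one hn').2 hpn)
    rw [Real.rpow_one, div_lt_iff₀ pM] at h3
    linarith
  have hev : evol K = evol L := le_antisymm (ineq hK hL h) (ineq hL hK h.symm)
  have heq : evol K * (evol L / evol K) ^ (p / n) =
      ∫ u, (supportFn L u / supportFn K u) ^ p ∂(coneVol K) := by
    rw [key hK hL h, hev, div_self pL.ne', Real.one_rpow, mul_one]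
  obtain ⟨c, hc, hcL⟩ := (lp_minkowski hn hK hL hp).2.1 heq
  have h1 : evol L = c ^ n * evol K := by rw [hcL, evol_smul K hc.le]
  have h2 : c ^ n = 1 := by
    rw [hev] at h1
    have : c ^ n * evol L = 1 * evol L := by rw [one_mul]; exact h1.symm
    exact mul_right_cancel₀ pL.ne' this
  have h3 : c = 1 := (pow_eq_one_iff_of_nonneg hc.le hn.ne').1 h2
  rw [hcL, h3, one_smul]

end H368

end Vale.Agent.P227
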